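import Vale.Agent.P004N.DefsL

/-!
# P004N.H503: absolute convergence of the Dirichlet series
-/

open Real Filter Topology Asymptotics

namespace P004N.H503.Sum

open P004N

/-! ### the bound `|A n| ≤ d(n) n` -/

lemma root_bound {p : ℝ} (hp : 1 ≤ p) {a : ℝ} (ha : |a| ≤ p + 1) {α : ℂ}
    (h : α ^ 2 - a * α + p = 0) : ‖α‖ ≤ p := by
  by_contra hlt
  push Not at hlt
  by_cases him : α.im = 0
  · obtain ⟨x, rfl⟩ : ∃ x : ℝ, (x : ℂ) = α := ⟨α.re, by apply Complex.ext <;> simp [him]⟩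
    have hx : x ^ 2 - a * x + p = 0 := by exact_mod_cast h
    rw [Complex.norm_real, Real.norm_eq_abs] at hlt
    have h1 : a * x = x ^ 2 + p := by linarith
    have h2 : a * x ≤ |a| * |x| := by rw [← abs_mul]; exact le_abs_self _
    have h3 : x ^ 2 = |x| ^ 2 := (sq_abs x).symm
    have h4 : |a| * |x| ≤ (p + 1) * |x| := mul_le_mul_of_nonneg_right ha (abs_nonneg _)
    have h5 : (|x| - p) * (|x| - 1) ≤ 0 := by nlinarith
    have h6 : 0 < (|x| - p) * (|x| - 1) := mul_pos (by linarith) (by linarith)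
    linarith
  · have hre : (α ^ 2 - a * α + p).re = 0 := by rw [h]; rfl
    have him2 : (α ^ 2 - a * α + p).im = 0 := by rw [h]; rfl
    simp only [sq, Complex.add_re, Complex.sub_re, Complex.mul_re, Complex.ofReal_re,
      Complex.ofReal_im, Complex.add_im, Complex.sub_im, Complex.mul_im] at hre him2
    have h1 : α.im * (2 * α.re - a) = 0 := by linarith
    have h2 : 2 * α.re - a = 0 := (mul_eq_zero.mp h1).resolve_left him
    have h3 : ‖α‖ ^ 2 = p := by
      rw [Complex.sq_norm, Complex.normSq_apply]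
      have h5 : a * α.re = 2 * α.re * α.re := by rw [show a = 2 * α.re by linarith]
      linarith
    nlinarith [norm_nonneg α]

lemma rec_bound {p : ℝ} (hp : 1 ≤ p) {a : ℝ} (ha : |a| ≤ p + 1) {x : ℕ → ℝ} (h0 : x 0 = 1)
    (h1 : x 1 = a) (hr : ∀ k, x (k + 2) = a * x (k + 1) - p * x k) (k : ℕ) :
    |x k| ≤ (k + 1) * p ^ k := by
  obtain ⟨α, hα⟩ : ∃ α : ℂ, α ^ 2 - a * α + p = 0 := by
    obtain ⟨s, hs⟩ := IsAlgClosed.exists_pow_nat_eq ((a : ℂ) ^ 2 - 4 * p) (n := 2) (by norm_num)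
    refine ⟨((a : ℂ) + s) / 2, ?_⟩
    field_simp
    linear_combination hs
  set β : ℂ := a - α with hβ
  have hβr : β ^ 2 - a * β + p = 0 := by rw [hβ]; linear_combination hα
  have hαβ : α * β = p := by rw [hβ]; linear_combination -hα
  have hna := root_bound hp ha hα
  have hnb := root_bound hp ha hβr
  have hdiff : ∀ k, (x (k + 1) : ℂ) - α * x k = β ^ (k + 1) := by
    intro k
    induction k with
    | zero => rw [h0, h1, hβ]; push_cast; ring
    | succ k ih =>
      rw [hr k]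
      push_cast
      have : (a : ℂ) = α + β := by rw [hβ]; ring
      rw [this, ← hαβ]
      linear_combination β * ih
  induction k with
  | zero => simp [h0]
  | succ k ih =>
    have h2 : (x (k + 1) : ℂ) = α * x k + β ^ (k + 1) := by linear_combination hdiff k
    have h3 : ‖(x (k + 1) : ℂ)‖ ≤ ‖α‖ * ‖(x k : ℂ)‖ + ‖β‖ ^ (k + 1) := by
      rw [h2]
      refine (norm_add_le _ _).trans ?_
      rw [norm_mul, norm_pow]
    rw [Complex.norm_real, Complex.norm_real, Real.norm_eq_abs, Real.norm_eq_abs] at h3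
    calc |x (k + 1)| ≤ ‖α‖ * |x k| + ‖β‖ ^ (k + 1) := h3
      _ ≤ p * ((k + 1) * p ^ k) + p ^ (k + 1) := by
          have i1 : ‖α‖ * |x k| ≤ p * ((k + 1) * p ^ k) :=
            mul_le_mul hna ih (abs_nonneg _) (by linarith)
          have i2 : ‖β‖ ^ (k + 1) ≤ p ^ (k + 1) := pow_le_pow_left₀ (norm_nonneg _) hnb _
          linarith
      _ = (((k + 1 : ℕ) : ℝ) + 1) * p ^ (k + 1) := by push_cast; ring

theorem ldr_bound {A : ℕ → ℝ} (h : LDr A) (n : ℕ) : |A n| ≤ (n.divisors.card : ℝ) * n := by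
  induction n using Nat.recOnPosPrimePosCoprime with
  | prime_pow p k hp _ =>
    have hp1 : (1 : ℝ) ≤ p := by exact_mod_cast hp.one_lt.le
    have hcard : ((p ^ k).divisors.card : ℝ) = k + 1 := by
      rw [Nat.divisors_prime_pow hp, Finset.card_map, Finset.card_range]
      push_cast; ring
    rw [hcard]
    push_cast
    rcases h.loc p hp with ⟨hr, hb⟩ | ⟨hr, hb⟩
    · exact rec_bound hp1 hb (x := fun k => A (p ^ k)) (by simp [h.one]) (by simp) hr k
    · have : |A (p ^ k)| ≤ 1 := by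
        induction k with
        | zero => simp [h.one]
        | succ k ih =>
          rw [hr k, abs_mul]
          by_cases hk : k = 0
          · subst hk
            simp only [pow_zero, h.one, abs_one, mul_one]
            exact hb
          · have := ih (Nat.pos_of_ne_zero hk) (by
              rw [Nat.divisors_prime_pow hp, Finset.card_map, Finset.card_range]
              push_cast; ring)
            exact mul_le_one₀ hb (abs_nonneg _) this
      have h2 : (1 : ℝ) ≤ (k + 1) * (p : ℝ) ^ k := by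
        have : (1 : ℝ) ≤ (p : ℝ) ^ k := one_le_pow₀ hp1
        nlinarith [Nat.cast_nonneg (α := ℝ) k]
      exact this.trans h2
  | zero => simp [h.zero]
  | one => simp [h.one]
  | coprime a b _ _ hab ha hb =>
    rw [h.mul a b hab, abs_mul, Nat.Coprime.card_divisors_mul hab]
    push_cast
    calc |A a| * |A b| ≤ (a.divisors.card * a) * (b.divisors.card * b) :=
          mul_le_mul ha hb (abs_nonneg _) (by positivity)
      _ = _ := by ring

lemma summable_div {t : ℝ} (ht : 1 < t) :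
    Summable (fun n : ℕ => (n.divisors.card : ℝ) * (n : ℝ) ^ (-t)) := by
  have h1 : LSeriesSummable (fun n => (ArithmeticFunction.zeta : ArithmeticFunction ℂ) n) (t : ℂ) :=
    ArithmeticFunction.LSeriesSummable_zeta_iff.mpr (by simpa using ht)
  have h2 := ArithmeticFunction.LSeriesSummable_mul h1 h1
  have h3 := h2.norm
  refine h3.congr ?_
  intro n
  rcases Nat.eq_zero_or_pos n with rfl | hn
  · simp
  · rw [LSeries.norm_term_eq, if_neg hn.ne']
    have h4 : ((ArithmeticFunction.zeta : ArithmeticFunction ℂ) *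
        (ArithmeticFunction.zeta : ArithmeticFunction ℂ)) n = (n.divisors.card : ℂ) := by
      rw [ArithmeticFunction.coe_zeta_mul_apply]
      have : ∀ i ∈ n.divisors, ((ArithmeticFunction.zeta : ArithmeticFunction ℂ) i) = 1 := by
        intro i hi
        have hi0 : i ≠ 0 := (Nat.pos_of_mem_divisors hi).ne'
        simp [hi0]
      rw [Finset.sum_congr rfl this]
      simp
    rw [h4, Complex.norm_natCast, Complex.ofReal_re, Real.rpow_neg (Nat.cast_nonneg n),
      div_eq_mul_inv]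

/-- **(S1)** absolute convergence for `Re s > 2`; this is `P004N.T8.Sm A` -/
theorem sm_of_ldr {A : ℕ → ℝ} (h : LDr A) :
    ∀ s : ℂ, 2 < s.re → Summable fun n : ℕ => (A n : ℂ) / (n : ℂ) ^ s := by
  intro s hs
  refine Summable.of_norm_bounded (summable_div (t := s.re - 1) (by linarith)) ?_
  intro n
  rcases Nat.eq_zero_or_pos n with rfl | hn
  · simp [h.zero]
  · have hn' : (0 : ℝ) < n := by exact_mod_cast hn
    rw [norm_div, Complex.norm_real, Complex.norm_natCast_cpow_of_pos hn, Real.norm_eq_abs,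
      div_le_iff₀ (Real.rpow_pos_of_pos hn' _)]
    have e : (n.divisors.card : ℝ) * (n : ℝ) ^ (-(s.re - 1)) * (n : ℝ) ^ s.re =
        (n.divisors.card : ℝ) * n := by
      rw [mul_assoc, ← Real.rpow_add hn']
      congr 1
      rw [show -(s.re - 1) + s.re = 1 by ring, Real.rpow_one]
    rw [e]
    exact ldr_bound h n

/-! ### convergence for `Re s > 3/2` from the mean square -/

lemma bigO {A : ℕ → ℝ} (hsq : ∃ C : ℝ, ∀ x : ℝ, 1 ≤ x → ∑ n ∈ Finset.Icc 1 ⌊x⌋₊, (A n) ^ 2 ≤ C * x ^ 2) :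
    (fun n : ℕ => ∑ k ∈ Finset.Icc 1 n, ‖(A k : ℂ)‖) =O[atTop] fun n : ℕ => (n : ℝ) ^ (3 / 2 : ℝ) := by
  obtain ⟨C, hC⟩ := hsq
  have hC0 : 0 ≤ C := by
    have h1 := hC 1 le_rfl
    have h2 : 0 ≤ ∑ n ∈ Finset.Icc 1 ⌊(1 : ℝ)⌋₊, (A n) ^ 2 :=
      Finset.sum_nonneg fun _ _ => sq_nonneg _
    linarith
  rw [Asymptotics.isBigO_iff]
  refine ⟨√C, ?_⟩
  filter_upwards [eventually_ge_atTop 1] with n hn
  have hn1 : (1 : ℝ) ≤ n := by exact_mod_cast hn
  have hn0 : (0 : ℝ) < n := by linarith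
  rw [Real.norm_of_nonneg (Finset.sum_nonneg fun _ _ => norm_nonneg _),
    Real.norm_of_nonneg (Real.rpow_nonneg hn0.le _)]
  have h1 : (∑ k ∈ Finset.Icc 1 n, ‖(A k : ℂ)‖) ^ 2 ≤ n * (C * (n : ℝ) ^ 2) := by
    have h2 := Finset.sum_mul_sq_le_sq_mul_sq (Finset.Icc 1 n) (fun _ => (1 : ℝ))
      (fun k => ‖(A k : ℂ)‖)
    simp only [one_mul, one_pow, Finset.sum_const, Nat.card_Icc, Nat.add_sub_cancel,
      nsmul_eq_mul, mul_one] at h2
    refine h2.trans ?_
    apply mul_le_mul_of_nonneg_left _ hn0.le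
    have h3 := hC n hn1
    rw [Nat.floor_natCast] at h3
    refine le_trans (le_of_eq ?_) h3
    apply Finset.sum_congr rfl
    intro k _
    rw [Complex.norm_real, Real.norm_eq_abs, sq_abs]
  have h4 : (√C * (n : ℝ) ^ (3 / 2 : ℝ)) ^ 2 = n * (C * (n : ℝ) ^ 2) := by
    rw [mul_pow, Real.sq_sqrt hC0, ← Real.rpow_natCast ((n : ℝ) ^ (3 / 2 : ℝ)) 2,
      ← Real.rpow_mul hn0.le]
    norm_num
    ring
  rw [← h4] at h1
  exact le_of_sq_le_sq h1 (by positivity) |> fun h => h

/-- **(S2)** -/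
theorem hasSum_32 {A : ℕ → ℝ} {L : ℂ → ℂ} (hL : IsLr A L)
    (hsq : ∃ C : ℝ, ∀ x : ℝ, 1 ≤ x → ∑ n ∈ Finset.Icc 1 ⌊x⌋₊, (A n) ^ 2 ≤ C * x ^ 2)
    (h0 : A 0 = 0) : ∀ s : ℂ, 3 / 2 < s.re → LSeriesHasSum (fun n => (A n : ℂ)) s (L s) := by
  have hsum : ∀ s : ℂ, 3 / 2 < s.re → LSeriesSummable (fun n => (A n : ℂ)) s := fun s hs =>
    LSeriesSummable_of_sum_norm_bigO (bigO hsq) (by norm_num) hs
  have hterm : ∀ s : ℂ, LSeries.term (fun n => (A n : ℂ)) s = fun n : ℕ => (A n : ℂ) / (n : ℂ) ^ s := by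
    intro s
    funext n
    rcases Nat.eq_zero_or_pos n with rfl | hn
    · simp [h0]
    · rw [LSeries.term_of_ne_zero hn.ne']
  have hser : ∀ s : ℂ, LSeries (fun n => (A n : ℂ)) s = ∑' n : ℕ, (A n : ℂ) / (n : ℂ) ^ s := by
    intro s
    rw [LSeries, hterm]
  have habs : LSeries.abscissaOfAbsConv (fun n => (A n : ℂ)) ≤ ((3 / 2 : ℝ) : EReal) :=
    LSeries.abscissaOfAbsConv_le_of_forall_lt_LSeriesSummable fun y hy =>
      hsum y (by simpa using hy)
  have hU : IsOpen {s : ℂ | (3 / 2 : ℝ) < s.re} := isOpen_lt continuous_const Complex.continuous_re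
  have hUc : IsPreconnected {s : ℂ | (3 / 2 : ℝ) < s.re} :=
    (convex_halfSpace_re_gt (3 / 2)).isPreconnected
  have ha : AnalyticOnNhd ℂ (LSeries (fun n => (A n : ℂ))) {s : ℂ | (3 / 2 : ℝ) < s.re} := by
    intro s hs
    apply LSeries_analyticOnNhd
    show LSeries.abscissaOfAbsConv (fun n => (A n : ℂ)) < (s.re : EReal)
    exact lt_of_le_of_lt habs (by exact_mod_cast hs)
  have hb : AnalyticOnNhd ℂ L {s : ℂ | (3 / 2 : ℝ) < s.re} := fun s _ => hL.1.analyticAt s
  have heq : Set.EqOn L (LSeries (fun n => (A n : ℂ))) {s : ℂ | (3 / 2 : ℝ) < s.re} := by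
    refine AnalyticOnNhd.eqOn_of_preconnected_of_eventuallyEq hb ha hUc
      (z₀ := (3 : ℂ)) (by show (3 / 2 : ℝ) < (3 : ℂ).re; norm_num) ?_
    have hopen : IsOpen {s : ℂ | 2 < s.re} := isOpen_lt continuous_const Complex.continuous_re
    have hmem : (3 : ℂ) ∈ {s : ℂ | 2 < s.re} := by
      show (2 : ℝ) < (3 : ℂ).re
      norm_num
    filter_upwards [hopen.mem_nhds hmem] with s hs
    rw [hL.2 s hs, hser]
  intro s hs
  have h1 := (hsum s hs).LSeriesHasSum
  rwa [← heq hs] at h1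

end P004N.H503.Sum
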