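import Vale.Agent.P004N.H503.Twist

/-!
# P004N.H503: forms supported on the multiples of primes not dividing the level (module U8)
-/

open UpperHalfPlane CongruenceSubgroup Matrix OnePoint Function
open scoped MatrixGroups ModularForm Manifold Real

namespace P004N.H503

lemma slash_scale {k a b c d : ℤ} (hk : k ≠ 0) (h : 0 < a * d - b * c) (F : ℍ → ℂ) :
    F ∣[(2 : ℤ)] gm (k * a) (k * b) (k * c) (k * d) = F ∣[(2 : ℤ)] gm a b c d := by
  have h' : 0 < (k * a) * (k * d) - (k * b) * (k * c) := by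
    have : (k * a) * (k * d) - (k * b) * (k * c) = k ^ 2 * (a * d - b * c) := by ring
    rw [this]; positivity
  have hkc : (k : ℂ) ≠ 0 := by exact_mod_cast hk
  have hcd : ¬ (c = 0 ∧ d = 0) := by
    rintro ⟨rfl, rfl⟩
    simp at h
  funext z
  have hne := denom_ne hcd z
  rw [slash_gm h', slash_gm h]
  have hpt : gm (k * a) (k * b) (k * c) (k * d) • z = gm a b c d • z := by
    apply UpperHalfPlane.ext
    rw [gm_coe_smul h', gm_coe_smul h]
    push_cast
    rw [mul_assoc, mul_assoc, ← mul_add, ← mul_add, mul_div_mul_left _ _ hkc]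
  rw [hpt]
  push_cast
  rw [div_eq_div_iff (pow_ne_zero 2 (by
    rw [mul_assoc, ← mul_add]; exact mul_ne_zero hkc hne)) (pow_ne_zero 2 hne)]
  ring

/-- `z ↦ F (p z)` -/
lemma qe_V {F : ℍ → ℂ} {c : ℕ → ℂ} (hF : QE F c) {p : ℕ} (hp : 0 < p) :
    QE (F ∣[(2 : ℤ)] gm p 0 0 1) (fun n => if p ∣ n then (p : ℂ) * c (n / p) else 0) := by
  intro z
  have hdet : (0 : ℤ) < p * 1 - 0 * 0 := by simpa using hp
  rw [slash_gm hdet]
  have h := (hF (gm p 0 0 1 • z)).mul_left (p : ℂ)
  have hinj : Function.Injective (fun n : ℕ => p * n) := fun a b h => Nat.eq_of_mul_eq_mul_left hp h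
  have hval : F (gm p 0 0 1 • z) * (((p : ℤ) * 1 - 0 * 0 : ℤ) : ℂ) /
      (((0 : ℤ) : ℂ) * z + ((1 : ℤ) : ℂ)) ^ 2 = (p : ℂ) * F (gm p 0 0 1 • z) := by
    push_cast
    ring
  rw [hval]
  refine (hinj.hasSum_iff (f := fun n : ℕ => (if p ∣ n then (p : ℂ) * c (n / p) else 0) *
    Complex.exp (2 * π * Complex.I * n * z)) ?_).mp ?_
  · intro n hn
    have : ¬ p ∣ n := fun ⟨k, hk⟩ => hn ⟨k, hk.symm⟩
    simp [this]
  · have hfun : ((fun n : ℕ => (if p ∣ n then (p : ℂ) * c (n / p) else 0) *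
        Complex.exp (2 * π * Complex.I * n * z)) ∘ fun n : ℕ => p * n) =
        fun i : ℕ => (p : ℂ) * (c i * Complex.exp (2 * π * Complex.I * i *
          ((gm p 0 0 1 • z : ℍ) : ℂ))) := by
      funext n
      simp only [Function.comp_apply, dvd_mul_right, if_true, Nat.mul_div_cancel_left _ hp]
      rw [gm_coe_smul hdet]
      push_cast
      rw [mul_assoc]
      congr 3
      ring
    rw [hfun]
    exact h

lemma slash_inj {F G : ℍ → ℂ} {g : GL (Fin 2) ℝ} (h : F ∣[(2 : ℤ)] g = G ∣[(2 : ℤ)] g) : F = G := by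
  have := congrArg (fun H : ℍ → ℂ => H ∣[(2 : ℤ)] g⁻¹) h
  simpa [← SlashAction.slash_mul] using this

/-- `F ∣ [1,0;0,p]` has level `L` if `F` has level `L` and is invariant under `z ↦ z + 1/p` -/
lemma inv_div {F : ℍ → ℂ} {L p : ℕ} (hp : p.Prime) (hpL : ¬ p ∣ L) (hF : Inv0 L F)
    (hT : tr F p 1 = F) : Inv0 L (F ∣[(2 : ℤ)] gm 1 0 0 p) := by
  have hp0 : (0 : ℤ) < p := by exact_mod_cast hp.pos
  have hdp : (1 : ℤ) * p - 0 * 0 ≠ 0 := by simpa using hp0.ne'
  set E := F ∣[(2 : ℤ)] gm 1 0 0 p with hE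
  -- `T`
  have hET : E ∣[(2 : ℤ)] gm 1 1 0 1 = E := by
    have h1 : F ∣[(2 : ℤ)] gm 1 1 0 p = F ∣[(2 : ℤ)] gm 1 0 0 p := by
      conv_rhs => rw [← hT]
      unfold tr
      rw [← SlashAction.slash_mul, gm_mul (tr_det hp.pos 1).ne' hdp]
      have h2 := slash_scale (k := p) (a := 1) (b := 1) (c := 0) (d := p) hp0.ne'
        (by simpa using hp0) F
      rw [← h2]
      congr 2 <;> ring
    rw [hE, ← SlashAction.slash_mul, gm_mul hdp (by norm_num)]
    rw [← h1]
    congr 2 <;> ring
  have hETk : ∀ k : ℤ, E ∣[(2 : ℤ)] gm 1 k 0 1 = E := by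
    intro k
    induction k using Int.induction_on with
    | zero =>
      have : gm 1 0 0 1 = 1 := by
        apply Units.ext
        rw [gm_coe (by norm_num)]
        simp [Matrix.one_fin_two]
      rw [this, SlashAction.slash_one]
    | succ i ih =>
      have : gm 1 ((i : ℤ) + 1) 0 1 = gm 1 1 0 1 * gm 1 i 0 1 := by
        rw [gm_mul (by norm_num) (by norm_num)]
        congr 1 <;> ring
      rw [this, SlashAction.slash_mul, hET, ih]
    | pred i ih =>
      have : gm 1 (-(i : ℤ)) 0 1 = gm 1 (-(i : ℤ) - 1) 0 1 * gm 1 1 0 1 := by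
        rw [gm_mul (by norm_num) (by norm_num)]
        congr 1 <;> ring
      rw [this, SlashAction.slash_mul] at ih
      apply slash_inj (g := gm 1 1 0 1)
      rw [ih, hET]
  -- `p ∣ b`
  have h1 : ∀ a b c d : ℤ, a * d - b * c = 1 → (L : ℤ) ∣ c → (p : ℤ) ∣ b →
      E ∣[(2 : ℤ)] gm a b c d = E := by
    rintro a _ c d hd hc ⟨b, rfl⟩
    have hd' : a * d - b * (p * c) = 1 := by linarith
    have h2 : gm 1 0 0 p * gm a (p * b) c d = gm a b (p * c) d * gm 1 0 0 p := by
      rw [gm_mul hdp (by rw [hd]; norm_num), gm_mul (by rw [hd']; norm_num) hdp]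
      congr 1 <;> ring
    rw [hE, ← SlashAction.slash_mul, h2, SlashAction.slash_mul,
      hF a b (p * c) d hd' (Dvd.dvd.mul_left hc _)]
  -- `p ∤ a`
  have h2 : ∀ a b c d : ℤ, a * d - b * c = 1 → (L : ℤ) ∣ c → ¬ (p : ℤ) ∣ a →
      E ∣[(2 : ℤ)] gm a b c d = E := by
    intro a b c d hd hc ha
    have hcop : IsCoprime a (p : ℤ) :=
      ((Int.prime_iff_natAbs_prime.mpr (by simpa using hp)).coprime_iff_not_dvd.mpr ha).symm
    obtain ⟨u, v, huv⟩ := hcop
    have h3 := h1 a (b + a * (-(u * b))) c (d + c * (-(u * b))) (by linear_combination hd) hc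
      ⟨v * b, by linear_combination (-b) * huv⟩
    have h4 : gm a (b + a * (-(u * b))) c (d + c * (-(u * b))) =
        gm a b c d * gm 1 (-(u * b)) 0 1 := by
      rw [gm_mul (by rw [hd]; norm_num) (by norm_num)]
      congr 1 <;> ring
    rw [h4, SlashAction.slash_mul] at h3
    apply slash_inj (g := gm 1 (-(u * b)) 0 1)
    rw [h3, hETk]
  intro a b c d hd hc
  by_cases ha : (p : ℤ) ∣ a
  · have hca : ¬ (p : ℤ) ∣ c := by
      intro hc'
      have : (p : ℤ) ∣ 1 := by
        rw [← hd]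
        exact dvd_sub (Dvd.dvd.mul_right ha _) (Dvd.dvd.mul_left hc' _)
      exact hp.one_lt.ne' (by exact_mod_cast Int.eq_one_of_dvd_one hp0.le this)
    have h3 := h2 (a + c) (b + d) c d (by linear_combination hd) hc
      (fun h => hca ((dvd_add_right ha).mp h))
    have h4 : gm (a + c) (b + d) c d = gm 1 1 0 1 * gm a b c d := by
      rw [gm_mul (by norm_num) (by rw [hd]; norm_num)]
      congr 1 <;> ring
    rw [h4, SlashAction.slash_mul, hET] at h3
    exact h3
  · exact h2 a b c d hd hc ha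

/-- **Lemma A** -/
lemma supp_prime {F : ℍ → ℂ} {c : ℕ → ℂ} {L p : ℕ} (hp : p.Prime) (hpL : ¬ p ∣ L)
    (hF : Inv0 L F) (hq : QE F c) (hc : ∀ n, ¬ p ∣ n → c n = 0) : ∀ n, c n = 0 := by
  have hp0 : (0 : ℤ) < p := by exact_mod_cast hp.pos
  have hdp : (1 : ℤ) * p - 0 * 0 ≠ 0 := by simpa using hp0.ne'
  have hdp' : (p : ℤ) * 1 - 0 * 0 ≠ 0 := by simpa using hp0.ne'
  have hT : tr F p 1 = F := by
    funext z
    refine (qe_tr hq hp.pos 1 z).unique ?_
    convert hq z using 3 with n
    show Complex.exp (2 * π * Complex.I * (n : ℂ) * (((1 : ℤ) : ℂ) / p)) * c n = c n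
    by_cases hn : p ∣ n
    · obtain ⟨k, rfl⟩ := hn
      have h1 : Complex.exp (2 * π * Complex.I * ((p * k : ℕ) : ℂ) * (((1 : ℤ) : ℂ) / p)) = 1 := by
        rw [Complex.exp_eq_one_iff]
        refine ⟨k, ?_⟩
        have : (p : ℂ) ≠ 0 := by exact_mod_cast hp.ne_zero
        push_cast
        field_simp
      rw [h1, one_mul]
    · rw [hc n hn, mul_zero]
  have hE := inv_div hp hpL hF hT
  set E := F ∣[(2 : ℤ)] gm 1 0 0 p with hEdef
  -- `E ∣ [1,0;0,p] = F`
  have hcop : IsCoprime (p : ℤ) (L : ℤ) := by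
    rw [Nat.isCoprime_iff_coprime]
    exact (Nat.Prime.coprime_iff_not_dvd hp).mpr hpL
  obtain ⟨x, y', hxy⟩ := hcop
  set y : ℤ := -y' with hy
  have hdet : (p : ℤ) * x - y * L = 1 := by rw [hy]; linarith
  have hdet' : (1 : ℤ) * (p * x) - y * L = 1 := by linarith
  have hE2 : E ∣[(2 : ℤ)] gm 1 0 0 p = F := by
    have h1 : gm 1 0 0 p * gm p y L x = gm 1 y L (p * x) * gm p 0 0 1 := by
      rw [gm_mul hdp (by rw [hdet]; norm_num), gm_mul (by rw [hdet']; norm_num) hdp']
      congr 1 <;> ring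
    apply slash_inj (g := gm p y L x)
    rw [← SlashAction.slash_mul, h1, SlashAction.slash_mul, hE 1 y L (p * x) hdet' (dvd_refl _),
      hF p y L x hdet (dvd_refl _), hEdef, ← SlashAction.slash_mul, gm_mul hdp hdp']
    have h2 := slash_scale (k := p) (a := 1) (b := 0) (c := 0) (d := 1) hp0.ne' (by norm_num) F
    have h3 : gm 1 0 0 1 = 1 := by
      apply Units.ext
      rw [gm_coe (by norm_num)]
      simp [Matrix.one_fin_two]
    rw [h3, SlashAction.slash_one] at h2
    conv_rhs => rw [← h2]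
    congr 2 <;> ring
  -- `F = F ∣ [p,0;0,1] ∣ [p,0;0,1]`
  have hF2 : (F ∣[(2 : ℤ)] gm p 0 0 1) ∣[(2 : ℤ)] gm p 0 0 1 = F := by
    have h1 : ∀ G : ℍ → ℂ, (G ∣[(2 : ℤ)] gm 1 0 0 p) ∣[(2 : ℤ)] gm p 0 0 1 = G := by
      intro G
      rw [← SlashAction.slash_mul, gm_mul hdp hdp']
      have h2 := slash_scale (k := p) (a := 1) (b := 0) (c := 0) (d := 1) hp0.ne' (by norm_num) G
      have h3 : gm 1 0 0 1 = 1 := by
        apply Units.ext
        rw [gm_coe (by norm_num)]
        simp [Matrix.one_fin_two]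
      rw [h3, SlashAction.slash_one] at h2
      conv_rhs => rw [← h2]
      congr 2 <;> ring
    have h4 : F ∣[(2 : ℤ)] gm p 0 0 1 = E := by
      conv_lhs => rw [← hE2]
      exact h1 E
    rw [h4, hEdef]
    exact h1 F
  have hco := pfQEu F _ _ hq (by
    have := qe_V (qe_V hq hp.pos) hp.pos
    rwa [hF2] at this)
  intro n
  induction n using Nat.strong_induction_on with
  | _ n ih =>
    rw [hco]
    show (if p ∣ n then (p : ℂ) * (if p ∣ n / p then (p : ℂ) * c (n / p / p) else 0) else 0) = 0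
    split_ifs with h1 h2
    · rcases Nat.eq_zero_or_pos n with h0 | h0
      · subst h0
        have h3 := congr_fun hco 0
        simp only [dvd_zero, if_true, Nat.zero_div] at h3
        have hp1 : (p : ℂ) * p - 1 ≠ 0 := by
          have : ((p * p - 1 : ℤ) : ℂ) ≠ 0 := by
            have h4 : (1 : ℤ) < p := by exact_mod_cast hp.one_lt
            have : (p * p - 1 : ℤ) ≠ 0 := by nlinarith
            exact_mod_cast this
          push_cast at this
          exact this
        have h5 : ((p : ℂ) * p - 1) * c 0 = 0 := by linear_combination -h3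
        have h6 := (mul_eq_zero.mp h5).resolve_left hp1
        simp [h6]
      · have h7 : n / p / p < n :=
          lt_of_le_of_lt (Nat.div_le_self _ _) (Nat.div_lt_self h0 hp.one_lt)
        rw [ih _ h7]; simp
    · simp
    · rfl

/-- **U8** -/
theorem pfSupp : StSupp := by
  intro L R
  induction R using Nat.strong_induction_on generalizing L with
  | _ R ih =>
    intro F c hL hR hLR hF hq hc
    have hfin : (∀ n, c n = 0) → ∀ z, F z = 0 := by
      intro h z
      refine (hq z).unique ?_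
      simpa [h] using (hasSum_zero : HasSum (fun _ : ℕ => (0 : ℂ)) 0)
    by_cases hR1 : R = 1
    · exact hfin fun n => hc n (by rw [hR1]; exact Nat.coprime_one_right n)
    · set p := R.minFac with hp
      have hpp : p.Prime := Nat.minFac_prime hR1
      have hpR : p ∣ R := Nat.minFac_dvd R
      have hpL : ¬ p ∣ L := fun h =>
        hpp.one_lt.ne' (Nat.dvd_one.mp (hLR ▸ Nat.dvd_gcd h hpR))
      obtain ⟨k, R', hR'p, hRR'⟩ := Nat.exists_eq_pow_mul_and_not_dvd hR.ne' p hpp.ne_one
      have hk : k ≠ 0 := by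
        rintro rfl
        rw [pow_zero, one_mul] at hRR'
        exact hR'p (hRR' ▸ hpR)
      have hR'0 : 0 < R' := Nat.pos_of_ne_zero fun h => hR'p (h ▸ dvd_zero _)
      have hlt : R' < R := by
        rw [hRR']
        have : 1 < p ^ k := Nat.one_lt_pow hk hpp.one_lt
        nlinarith
      have : NeZero p := ⟨hpp.ne_zero⟩
      have hLp : 0 < L * p ^ 2 := Nat.mul_pos hL (Nat.pow_pos hpp.pos)
      obtain ⟨G, hG, hGq⟩ := pfTwist L p (fun x => if x = 0 then 0 else 1) F c hL hpp.pos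
        (by
          intro u x
          have : (u : ZMod p) ^ 2 * x = 0 ↔ x = 0 := by
            rw [← Units.val_pow_eq_pow_val, Units.mul_right_eq_zero]
          simp only [this]) hF hq
      have hG0 := ih R' hlt (L * p ^ 2) G _ hLp hR'0 (by
          apply Nat.Coprime.mul_left
          · exact Nat.Coprime.coprime_dvd_right ⟨p ^ k, by rw [hRR']; ring⟩ hLR
          · exact Nat.Coprime.pow_left 2 ((Nat.Prime.coprime_iff_not_dvd hpp).mpr hR'p)) hG hGq
        (by
          intro n hn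
          by_cases hpn : p ∣ n
          · have : ((n : ℕ) : ZMod p) = 0 := (ZMod.natCast_eq_zero_iff n p).mpr hpn
            simp [this]
          · have hnR : n.Coprime R := by
              rw [hRR']
              exact Nat.Coprime.mul_right
                (Nat.Coprime.pow_right k ((Nat.Prime.coprime_iff_not_dvd hpp).mpr hpn).symm) hn
            simp [hc n hnR])
      have hG1 : QE G 0 := by
        intro z
        rw [hG0 z]
        simpa using (hasSum_zero : HasSum (fun _ : ℕ => (0 : ℂ)) 0)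
      have hco := pfQEu G _ _ hGq hG1
      apply hfin
      apply supp_prime hpp hpL ((s2_iff L F).mp hF).2.1 hq
      intro n hn
      have h1 := congr_fun hco n
      have h2 : ((n : ℕ) : ZMod p) ≠ 0 := fun h => hn ((ZMod.natCast_eq_zero_iff n p).mp h)
      simpa [h2] using h1

end P004N.H503
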