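import Vale.Agent.P004N.H503.QExp

/-!
# P004N.H503: twists (module U7)
-/

open UpperHalfPlane CongruenceSubgroup Matrix OnePoint Function
open scoped MatrixGroups ModularForm Manifold Real

namespace P004N.H503

/-- `z ↦ F (z + j / m)` -/
noncomputable def tr (F : ℍ → ℂ) (m : ℕ) (j : ℤ) : ℍ → ℂ := F ∣[(2 : ℤ)] gm m j 0 m

lemma tr_det {m : ℕ} (hm : 0 < m) (j : ℤ) : 0 < (m : ℤ) * m - j * 0 := by
  have : (0 : ℤ) < m := by exact_mod_cast hm
  rw [mul_zero, sub_zero]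
  positivity

lemma gm_smul_coe_add {m : ℕ} (hm : 0 < m) (j : ℤ) (z : ℍ) :
    ((gm m j 0 m • z : ℍ) : ℂ) = z + j / m := by
  rw [gm_coe_smul (tr_det hm j)]
  have : (m : ℂ) ≠ 0 := by exact_mod_cast hm.ne'
  push_cast
  rw [zero_mul, zero_add]
  field_simp

lemma tr_apply (F : ℍ → ℂ) {m : ℕ} (hm : 0 < m) (j : ℤ) (z : ℍ) :
    tr F m j z = F (gm m j 0 m • z) := by
  unfold tr
  rw [slash_gm (tr_det hm j)]
  have : (m : ℂ) ≠ 0 := by exact_mod_cast hm.ne'
  push_cast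
  rw [zero_mul, zero_add, mul_zero, sub_zero]
  field_simp

lemma qe_tr {F : ℍ → ℂ} {c : ℕ → ℂ} (hF : QE F c) {m : ℕ} (hm : 0 < m) (j : ℤ) :
    QE (tr F m j) (fun n => Complex.exp (2 * π * Complex.I * n * (j / m)) * c n) := by
  intro z
  rw [tr_apply F hm]
  have h := hF (gm m j 0 m • z)
  convert h using 2 with n
  rw [gm_smul_coe_add hm, mul_add, Complex.exp_add]
  ring

lemma tr_congr {F : ℍ → ℂ} {M : ℕ} (hF : Inv0 M F) {m : ℕ} (hm : 0 < m) {j j' : ℤ}
    (h : (j : ZMod m) = (j' : ZMod m)) : tr F m j = tr F m j' := by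
  rw [ZMod.intCast_eq_intCast_iff_dvd_sub] at h
  obtain ⟨k, hk⟩ := h
  have : gm m j' 0 m = gm 1 k 0 1 * gm m j 0 m := by
    rw [gm_mul (by norm_num) (tr_det hm j).ne']
    have : j' = j + m * k := by linarith
    subst this
    congr 1 <;> ring
  unfold tr
  rw [this, SlashAction.slash_mul, hF 1 k 0 1 (by norm_num) (dvd_zero _)]

lemma tr_slash {F : ℍ → ℂ} {M : ℕ} (hF : Inv0 M F) {m : ℕ} (hm : 0 < m) {a b c d : ℤ}
    (hd : a * d - b * c = 1) (hc : ((M * m ^ 2 : ℕ) : ℤ) ∣ c) (j : ℤ) :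
    (tr F m j) ∣[(2 : ℤ)] gm a b c d = tr F m (d ^ 2 * j) := by
  obtain ⟨e, rfl⟩ := hc
  push_cast at hd ⊢
  have hm' : (m : ℤ) ≠ 0 := by exact_mod_cast hm.ne'
  set c₂ : ℤ := M * e with hc₂
  have hcc : (M : ℤ) * (m : ℤ) ^ 2 * e = m ^ 2 * c₂ := by rw [hc₂]; ring
  rw [hcc] at hd ⊢
  have hdet' : (a + j * m * c₂) * (d - d ^ 2 * j * m * c₂) -
      (b - j * d * b * m * c₂ - j * (d ^ 2 * j) * c₂) * (m ^ 2 * c₂) = 1 := by
    have hb : b * (m ^ 2 * c₂) = a * d - 1 := by linarith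
    linear_combination (1 + j * d * m * c₂ * (-1)) * hd
  have h1 : gm m j 0 m * gm a b (m ^ 2 * c₂) d =
      gm (a + j * m * c₂) (b - j * d * b * m * c₂ - j * (d ^ 2 * j) * c₂) (m ^ 2 * c₂)
        (d - d ^ 2 * j * m * c₂) * gm m (d ^ 2 * j) 0 m := by
    rw [gm_mul (tr_det hm j).ne' (by rw [hd]; norm_num),
      gm_mul (by rw [hdet']; norm_num) (tr_det hm _).ne']
    congr 1
    · ring
    · linear_combination (-j * d) * hd
    · ring
    · ring
  unfold tr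
  rw [← SlashAction.slash_mul, h1, SlashAction.slash_mul,
    hF _ _ _ _ hdet' (Dvd.intro_left (m ^ 2 * e) (by rw [hc₂]; ring))]

lemma gm_smul_slash {a b c d : ℤ} (h : 0 < a * d - b * c) (k : ℂ) (F : ℍ → ℂ) :
    (k • F) ∣[(2 : ℤ)] gm a b c d = k • (F ∣[(2 : ℤ)] gm a b c d) := by
  funext z
  rw [Pi.smul_apply, slash_gm h, slash_gm h]
  simp only [Pi.smul_apply, smul_eq_mul]
  ring

open scoped ZMod in
/-- **U7** -/
theorem pfTwist : StTwist := by
  intro M m v F c hM hm hv hF hq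
  have : NeZero m := ⟨hm.ne'⟩
  obtain ⟨hmd, hi, hz⟩ := (s2_iff M F).mp hF
  set w : ZMod m → ℂ := ZMod.dft v with hw
  have hwu : ∀ (u : (ZMod m)ˣ) (x : ZMod m), w ((u : ZMod m) ^ 2 * x) = w x := by
    intro u x
    have h1 := ZMod.dft_comp_unitMul v (u ^ 2) (((u ^ 2 : (ZMod m)ˣ) : ZMod m) * x)
    have h2 : (fun j => v (((u ^ 2 : (ZMod m)ˣ) : ZMod m) * j)) = v := by
      funext j
      rw [Units.val_pow_eq_pow_val]; exact hv u j
    rw [h2] at h1
    rw [hw, ← Units.val_pow_eq_pow_val, h1]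
    rw [← mul_assoc, ← Units.val_mul, inv_mul_cancel, Units.val_one, one_mul]
  set G : ℍ → ℂ := ∑ j : ZMod m, ((m : ℂ)⁻¹ * w j) • tr F m (j.val : ℤ) with hG
  have hvw : ∀ n : ℕ, v (n : ZMod m) =
      ∑ j : ZMod m, ((m : ℂ)⁻¹ * w j) * Complex.exp (2 * π * Complex.I * n * ((j.val : ℤ) / m)) := by
    intro n
    have h1 : v (n : ZMod m) = ZMod.dft.symm w (n : ZMod m) := by
      rw [hw, LinearEquiv.symm_apply_apply]
    rw [h1, ZMod.invDFT_apply, Finset.smul_sum]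
    apply Finset.sum_congr rfl
    intro j _
    have h2 : ZMod.stdAddChar (j * (n : ZMod m)) =
        Complex.exp (2 * π * Complex.I * n * ((j.val : ℤ) / m)) := by
      have h3 : j * (n : ZMod m) = (((j.val : ℤ) * n : ℤ) : ZMod m) := by
        push_cast
        rw [ZMod.natCast_zmod_val]
      rw [h3, ZMod.stdAddChar_coe]
      congr 1
      push_cast
      ring
    rw [h2]
    simp only [smul_eq_mul]
    ring
  refine ⟨G, (s2_iff _ _).mpr ⟨?_, ?_, ?_⟩, ?_⟩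
  · exact mdiff_sum _ fun j _ => mdiff_smul _ (mdiff_slash hmd _)
  · intro a b c' d hd hc
    have hdu : IsUnit ((d : ℤ) : ZMod m) := by
      have hmc : (m : ℤ) ∣ c' := by
        refine dvd_trans ?_ hc
        push_cast
        exact Dvd.intro_left ((M : ℤ) * m) (by ring)
      have : ((a : ℤ) : ZMod m) * ((d : ℤ) : ZMod m) = 1 := by
        have h1 : ((a * d - b * c' : ℤ) : ZMod m) = 1 := by rw [hd]; simp
        push_cast at h1
        rw [(ZMod.intCast_zmod_eq_zero_iff_dvd c' m).mpr hmc] at h1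
        simpa using h1
      exact IsUnit.of_mul_eq_one _ (by rw [mul_comm]; exact this)
    obtain ⟨u, hu⟩ := hdu
    rw [hG, SlashAction.sum_slash]
    have h1 : ∀ j : ZMod m, (((m : ℂ)⁻¹ * w j) • tr F m (j.val : ℤ)) ∣[(2 : ℤ)] gm a b c' d =
        ((m : ℂ)⁻¹ * w ((u : ZMod m) ^ 2 * j)) • tr F m ((((u : ZMod m) ^ 2 * j).val : ℕ) : ℤ) := by
      intro j
      rw [gm_smul_slash (by rw [hd]; norm_num), tr_slash hi hm hd hc, hwu]
      congr 1
      apply tr_congr hi hm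
      push_cast
      rw [ZMod.natCast_zmod_val, ZMod.natCast_zmod_val, hu]
    rw [Finset.sum_congr rfl fun j _ => h1 j]
    have h2 := Equiv.sum_comp (Units.mulLeft (u ^ 2))
      (fun j : ZMod m => ((m : ℂ)⁻¹ * w j) • tr F m (j.val : ℤ))
    simpa [Units.mulLeft] using h2
  · exact zc_sum _ fun j _ => zc_smul _ (zc_slash hz (tr_det hm _).ne')
  · have h1 := qe_sum (Finset.univ : Finset (ZMod m))
      (fun j _ => qe_smul ((m : ℂ)⁻¹ * w j) (qe_tr hq hm (j.val : ℤ)))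
    refine qe_congr h1 ?_
    intro n
    rw [Finset.sum_apply, hvw n, Finset.sum_mul]
    apply Finset.sum_congr rfl
    intro j _
    simp only [Pi.smul_apply, smul_eq_mul]
    ring

end P004N.H503
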