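import Vale.Agent.P004N.H503.Iface

/-!
# P004N.H503: the slash action of integral matrices
-/

open UpperHalfPlane CongruenceSubgroup Matrix OnePoint
open scoped MatrixGroups ModularForm Manifold Real

namespace P004N.H503

/-- the integral matrix `[a, b; c, d]` in `GL(2, ℝ)` (`1` if the determinant vanishes) -/
noncomputable def gm (a b c d : ℤ) : GL (Fin 2) ℝ :=
  if h : (a : ℝ) * d - b * c ≠ 0 then
    Matrix.GeneralLinearGroup.mkOfDetNeZero !![(a : ℝ), b; c, d]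
      (by simpa [Matrix.det_fin_two_of] using h)
  else 1

lemma gm_coe {a b c d : ℤ} (h : a * d - b * c ≠ 0) :
    ((gm a b c d : GL (Fin 2) ℝ) : Matrix (Fin 2) (Fin 2) ℝ) = !![(a : ℝ), b; c, d] := by
  have h' : (a : ℝ) * d - b * c ≠ 0 := by exact_mod_cast h
  simp [gm, h', Matrix.GeneralLinearGroup.mkOfDetNeZero]

lemma gm_det {a b c d : ℤ} (h : a * d - b * c ≠ 0) :
    (gm a b c d).det.val = (a : ℝ) * d - b * c := by
  rw [Matrix.GeneralLinearGroup.val_det_apply, gm_coe h, Matrix.det_fin_two_of]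

lemma gm_mul {a b c d a' b' c' d' : ℤ} (h : a * d - b * c ≠ 0) (h' : a' * d' - b' * c' ≠ 0) :
    gm a b c d * gm a' b' c' d' =
      gm (a * a' + b * c') (a * b' + b * d') (c * a' + d * c') (c * b' + d * d') := by
  have h'' : (a * a' + b * c') * (c * b' + d * d') - (a * b' + b * d') * (c * a' + d * c') ≠ 0 := by
    have : (a * a' + b * c') * (c * b' + d * d') - (a * b' + b * d') * (c * a' + d * c')
      = (a * d - b * c) * (a' * d' - b' * c') := by ring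
    rw [this]; exact mul_ne_zero h h'
  apply Units.ext
  rw [Units.val_mul, gm_coe h, gm_coe h', gm_coe h'']
  ext i j
  fin_cases i <;> fin_cases j <;> simp [Matrix.mul_apply, Fin.sum_univ_two]

lemma gm_coe_smul {a b c d : ℤ} (h : 0 < a * d - b * c) (z : ℍ) :
    ((gm a b c d • z : ℍ) : ℂ) = (a * z + b) / (c * z + d) := by
  have h0 : a * d - b * c ≠ 0 := h.ne'
  rw [coe_smul_of_det_pos (by rw [gm_det h0]; exact_mod_cast h)]
  simp [num, denom, gm_coe h0]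

lemma gm_denom {a b c d : ℤ} (h : a * d - b * c ≠ 0) (z : ℂ) :
    denom (gm a b c d) z = c * z + d := by
  simp [denom, gm_coe h]

lemma denom_ne {c d : ℤ} (h : ¬ (c = 0 ∧ d = 0)) (z : ℍ) : (c * z + d : ℂ) ≠ 0 := by
  have := linear_ne_zero (cd := ![(c : ℝ), (d : ℝ)]) z (by
    intro h0
    apply h
    have h1 := congr_fun h0 0
    have h2 := congr_fun h0 1
    simp at h1 h2
    exact ⟨h1, h2⟩)
  simpa using this

/-- the explicit form of the weight two slash action -/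
lemma slash_gm {a b c d : ℤ} (h : 0 < a * d - b * c) (F : ℍ → ℂ) (z : ℍ) :
    (F ∣[(2 : ℤ)] gm a b c d) z =
      F (gm a b c d • z) * ((a * d - b * c : ℤ) : ℂ) / (c * z + d) ^ 2 := by
  have h0 : a * d - b * c ≠ 0 := h.ne'
  have hpos : (0 : ℝ) < a * d - b * c := by exact_mod_cast h
  rw [ModularForm.slash_apply, gm_denom h0]
  have hσ : σ (gm a b c d) = ContinuousAlgEquiv.refl ℝ ℂ := by
    rw [σ, if_pos (by rw [gm_det h0]; exact hpos)]
  rw [hσ, gm_det h0, abs_of_pos hpos]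
  push_cast
  rw [_root_.zpow_neg, div_eq_mul_inv]
  norm_num

lemma SL_eq_gm (γ : SL(2, ℤ)) : (γ : GL (Fin 2) ℝ) = gm (γ 0 0) (γ 0 1) (γ 1 0) (γ 1 1) := by
  have hdet : γ 0 0 * γ 1 1 - γ 0 1 * γ 1 0 ≠ 0 := by
    have := γ.det_coe
    rw [Matrix.det_fin_two] at this
    rw [this]; exact one_ne_zero
  apply Units.ext
  rw [gm_coe hdet]
  ext i j
  fin_cases i <;> fin_cases j <;> simp

/-- element of `SL(2,ℤ)` with given entries -/
def mkSL (a b c d : ℤ) (h : a * d - b * c = 1) : SL(2, ℤ) :=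
  ⟨!![a, b; c, d], by rw [Matrix.det_fin_two_of]; exact h⟩

@[simp] lemma mkSL_00 {a b c d : ℤ} (h : a * d - b * c = 1) : mkSL a b c d h 0 0 = a := rfl
@[simp] lemma mkSL_01 {a b c d : ℤ} (h : a * d - b * c = 1) : mkSL a b c d h 0 1 = b := rfl
@[simp] lemma mkSL_10 {a b c d : ℤ} (h : a * d - b * c = 1) : mkSL a b c d h 1 0 = c := rfl
@[simp] lemma mkSL_11 {a b c d : ℤ} (h : a * d - b * c = 1) : mkSL a b c d h 1 1 = d := rfl

lemma gm_eq_SL {a b c d : ℤ} (h : a * d - b * c = 1) : gm a b c d = (mkSL a b c d h : GL (Fin 2) ℝ) := by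
  rw [SL_eq_gm]; rfl

lemma slash_SL_gm {a b c d : ℤ} (h : a * d - b * c = 1) (F : ℍ → ℂ) :
    F ∣[(2 : ℤ)] (mkSL a b c d h) = F ∣[(2 : ℤ)] gm a b c d := by
  rw [ModularForm.SL_slash, gm_eq_SL h]

/-- invariance under `Γ₀(N)` -/
def Inv0 (N : ℕ) (F : ℍ → ℂ) : Prop :=
  ∀ a b c d : ℤ, a * d - b * c = 1 → (N : ℤ) ∣ c → F ∣[(2 : ℤ)] gm a b c d = F

lemma inv0_iff (N : ℕ) (F : ℍ → ℂ) :
    Inv0 N F ↔ ∀ γ ∈ Gamma0 N, F ∣[(2 : ℤ)] γ = F := by
  constructor
  · intro h γ hγ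
    rw [ModularForm.SL_slash, SL_eq_gm]
    apply h
    · have := γ.det_coe
      rw [Matrix.det_fin_two] at this
      exact this
    · rw [Gamma0_mem] at hγ
      exact (ZMod.intCast_zmod_eq_zero_iff_dvd _ _).mp hγ
  · intro h a b c d hd hc
    rw [← slash_SL_gm hd]
    apply h
    rw [Gamma0_mem]
    exact (ZMod.intCast_zmod_eq_zero_iff_dvd _ _).mpr hc

/-- zero at all cusps -/
def ZC (F : ℍ → ℂ) : Prop := ∀ γ : SL(2, ℤ), IsZeroAtImInfty (F ∣[(2 : ℤ)] γ)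

lemma zc_slash {F : ℍ → ℂ} (hF : ZC F) {a b c d : ℤ} (h : a * d - b * c ≠ 0) :
    ZC (F ∣[(2 : ℤ)] gm a b c d) := by
  intro γ
  rw [← isZeroAt_infty_iff (k := 2), ModularForm.SL_slash, ← SlashAction.slash_mul,
    ← OnePoint.IsZeroAt.smul_iff]
  have hq : (a : ℚ) * d - b * c ≠ 0 := by exact_mod_cast h
  set g' : GL (Fin 2) ℚ := Matrix.GeneralLinearGroup.mkOfDetNeZero !![(a : ℚ), b; c, d]
      (by simpa [Matrix.det_fin_two_of] using hq) with hg'
  have hmap : gm a b c d = g'.map (Rat.castHom ℝ) := by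
    apply Units.ext
    rw [gm_coe h]
    ext i j
    fin_cases i <;> fin_cases j <;> simp [hg', Matrix.GeneralLinearGroup.mkOfDetNeZero]
  have hcusp : IsCusp ((gm a b c d * (γ : GL (Fin 2) ℝ)) • (∞ : OnePoint ℝ)) 𝒮ℒ := by
    rw [isCusp_SL2Z_iff]
    refine ⟨(g' * (Matrix.SpecialLinearGroup.mapGL ℚ γ)) • ∞, ?_⟩
    rw [← Rat.coe_castHom, OnePoint.map_smul, OnePoint.map_infty, hmap]
    congr 1
    rw [map_mul]
    congr 1
    apply Units.ext
    ext i j
    fin_cases i <;> fin_cases j <;> simp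
  rw [isZeroAt_iff_exists_SL2Z hcusp]
  obtain ⟨δ, hδ⟩ := isCusp_SL2Z_iff'.mp hcusp
  exact ⟨δ, hδ.symm, hF δ⟩

lemma zc_zero : ZC (0 : ℍ → ℂ) := by
  intro γ
  simp only [SlashAction.zero_slash]
  exact Filter.zero_zeroAtFilter _

lemma zc_add {F G : ℍ → ℂ} (hF : ZC F) (hG : ZC G) : ZC (F + G) := by
  intro γ
  rw [SlashAction.add_slash]
  exact (hF γ).add (hG γ)

lemma zc_smul {F : ℍ → ℂ} (k : ℂ) (hF : ZC F) : ZC (k • F) := by
  intro γ
  rw [ModularForm.SL_smul_slash]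
  exact (hF γ).smul k

lemma zc_sum {ι : Type*} (s : Finset ι) {F : ι → ℍ → ℂ} (hF : ∀ i ∈ s, ZC (F i)) :
    ZC (∑ i ∈ s, F i) := by
  classical
  induction s using Finset.induction_on with
  | empty => simpa using zc_zero
  | insert i t hi IH =>
    rw [Finset.sum_insert hi]
    exact zc_add (hF i (Finset.mem_insert_self _ _))
      (IH fun j hj => hF j (Finset.mem_insert_of_mem hj))

lemma s2_iff (N : ℕ) (F : ℍ → ℂ) : S2 N F ↔ MDiff F ∧ Inv0 N F ∧ ZC F :=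
  ⟨fun h => ⟨h.holo, (inv0_iff N F).mpr h.slash, h.zero⟩,
    fun h => ⟨h.1, (inv0_iff N F).mp h.2.1, h.2.2⟩⟩

lemma mdiff_sum {ι : Type*} (s : Finset ι) {F : ι → ℍ → ℂ} (hF : ∀ i ∈ s, MDiff (F i)) :
    MDiff (∑ i ∈ s, F i) := by
  classical
  induction s using Finset.induction_on with
  | empty => 
    rw [Finset.sum_empty]
    exact mdifferentiable_const
  | insert i t hi IH =>
    rw [Finset.sum_insert hi]
    exact (hF i (Finset.mem_insert_self _ _)).add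
      (IH fun j hj => hF j (Finset.mem_insert_of_mem hj))

lemma mdiff_smul {F : ℍ → ℂ} (k : ℂ) (hF : MDiff F) : MDiff (k • F) := by
  exact hF.const_smul k

lemma mdiff_slash {F : ℍ → ℂ} (hF : MDiff F) (g : GL (Fin 2) ℝ) : MDiff (F ∣[(2 : ℤ)] g) :=
  hF.slash 2 g

end P004N.H503
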