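import Vale.Agent.P004N.Defs

/-!
# P004N.H503: the elementary route to the newform attached to a quadratic twist

Everything is stated for pairs `(F, c)`: `F` a weight two cusp form on `Γ₀(N)`, `F = ∑ c n q^n`.
Every module proves `theorem pfXxx : StXxx`.
-/

open UpperHalfPlane CongruenceSubgroup
open scoped MatrixGroups ModularForm Manifold Real

namespace P004N

/-! ### U1: expansions -/

/-- U1a: existence of the expansion -/
def StQEx : Prop := ∀ (N : ℕ) (F : ℍ → ℂ), 0 < N → S2 N F → ∃ c : ℕ → ℂ, QE F c ∧ c 0 = 0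

/-- U1b: uniqueness of the expansion -/
def StQEu : Prop := ∀ (F : ℍ → ℂ) (c c' : ℕ → ℂ), QE F c → QE F c' → c = c'

/-! ### U2: conjugation of the coefficients -/

def StConj : Prop := ∀ (N : ℕ) (F : ℍ → ℂ) (c : ℕ → ℂ), 0 < N → S2 N F → QE F c →
  ∃ G : ℍ → ℂ, S2 N G ∧ QE G (fun n => (starRingEnd ℂ) (c n))

/-! ### U3, U4: the operators `U_p`, `T_p` -/

/-- U3: `U_p`, `p ∣ M'`, maps level `M` to level `M'` if `M ∣ p M'`
(so `M' = M` for `p ∣ M` and `M' = M / p` for `p² ∣ M`) -/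
def StUp : Prop := ∀ (M M' p : ℕ) (F : ℍ → ℂ) (c : ℕ → ℂ), 0 < M → p.Prime → p ∣ M' →
  M ∣ p * M' → 0 < M' → S2 M F → QE F c → ∃ G : ℍ → ℂ, S2 M' G ∧ QE G (fun n => c (p * n))

/-- U4: `T_p`, `p ∤ M` -/
def StTp : Prop := ∀ (M p : ℕ) (F : ℍ → ℂ) (c : ℕ → ℂ), 0 < M → p.Prime → ¬ p ∣ M →
  S2 M F → QE F c →
  ∃ G : ℍ → ℂ, S2 M G ∧ QE G (fun n => c (p * n) + (if p ∣ n then (p : ℂ) * c (n / p) else 0))

/-! ### U5: Atkin-Lehner operators -/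

/-- `F ∣ W_Q = G` -/
def ALs (N Q : ℕ) (F G : ℍ → ℂ) : Prop :=
  ∀ x y z w : ℤ, (Q * x) * (Q * w) - y * (N * z) = (Q : ℤ) → ∀ τ τ' : ℍ,
    (τ' : ℂ) = (Q * x * τ + y) / (N * z * τ + Q * w) →
    F τ' = ((N * z * τ + Q * w) ^ 2 / Q) * G τ

/-- U5a: `W_Q` acts on the cusp forms, is an involution, commutes with `T_q`, `q ∤ N` -/
def StWQ : Prop := ∀ (N Q R : ℕ), 0 < N → Q * R = N → Q.Coprime R →
  ∀ (F : ℍ → ℂ) (c : ℕ → ℂ), S2 N F → QE F c →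
  ∃ (G : ℍ → ℂ) (c' : ℕ → ℂ), S2 N G ∧ QE G c' ∧ ALs N Q F G ∧ ALs N Q G F ∧
    ∀ (q : ℕ) (l : ℂ), q.Prime → ¬ q ∣ N →
      (∀ n, c (q * n) + (if q ∣ n then (q : ℂ) * c (n / q) else 0) = l * c n) →
      (∀ n, c' (q * n) + (if q ∣ n then (q : ℂ) * c' (n / q) else 0) = l * c' n)

/-- U5b: `W_Q` determines its value -/
def StWu : Prop := ∀ (N Q R : ℕ), 0 < N → Q * R = N → Q.Coprime R →
  ∀ (F G G' : ℍ → ℂ), ALs N Q F G → ALs N Q F G' → G = G'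

/-- U5c: `W_Q` commutes with the Fricke involution `W_N` -/
def StWcm : Prop := ∀ (N Q R : ℕ), 0 < N → Q * R = N → Q.Coprime R →
  ∀ (F G H K : ℍ → ℂ), S2 N F → ALs N Q F G → ALs N N F H → ALs N Q H K → ALs N N G K

/-! ### U6: the trace -/

/-- U6: `F + U_p (F ∣ W_p)` has level `L`, if `F` has level `p L`, `p ∤ L` -/
def StTr : Prop := ∀ (L p : ℕ) (F G : ℍ → ℂ) (c c' : ℕ → ℂ), 0 < L → p.Prime → ¬ p ∣ L →
  S2 (p * L) F → QE F c → ALs (p * L) p F G → QE G c' →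
  ∃ H : ℍ → ℂ, S2 L H ∧ QE H (fun n => c n + c' (p * n))

/-! ### U7: twists -/

/-- U7: multiplying the coefficients with a function on `ℤ/m` invariant under the squares of the
units, level `M m²` -/
def StTwist : Prop := ∀ (M m : ℕ) (v : ZMod m → ℂ) (F : ℍ → ℂ) (c : ℕ → ℂ), 0 < M → 0 < m →
  (∀ (u : (ZMod m)ˣ) (x : ZMod m), v ((u : ZMod m) ^ 2 * x) = v x) → S2 M F → QE F c →
  ∃ G : ℍ → ℂ, S2 (M * m ^ 2) G ∧ QE G (fun n => v (n : ZMod m) * c n)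

/-! ### U8: forms supported on the multiples of primes not dividing the level -/

/-- U8: a cusp form of level `L` whose coefficients vanish at all `n` prime to `R`, where
`(R, L) = 1`, is zero -/
def StSupp : Prop := ∀ (L R : ℕ) (F : ℍ → ℂ) (c : ℕ → ℂ), 0 < L → 0 < R → L.Coprime R →
  S2 L F → QE F c → (∀ n : ℕ, n.Coprime R → c n = 0) → ∀ z, F z = 0

/-! ### U9: the newform attached to a quadratic twist -/

/-- `g = ∑ b n q^n` is a normalised cusp form on `Γ₀(M)`, eigenform of all Hecke operators and of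
the Fricke involution -/
structure NF (M : ℕ) (g : ℍ → ℂ) (b : ℕ → ℝ) (ε : ℝ) : Prop where
  pos : 0 < M
  s2 : S2 M g
  qe : QE g (fun n => (b n : ℂ))
  zero : b 0 = 0
  one : b 1 = 1
  good : ∀ p : ℕ, p.Prime → ¬ p ∣ M → ∀ n : ℕ,
    b (p * n) + (if p ∣ n then (p : ℝ) * b (n / p) else 0) = b p * b n
  bad : ∀ p : ℕ, p.Prime → p ∣ M → ∀ n : ℕ, b (p * n) = b p * b n
  bad1 : ∀ p : ℕ, p.Prime → p ∣ M → ¬ p ^ 2 ∣ M → (b p) ^ 2 = 1
  bad2 : ∀ p : ℕ, p.Prime → p ^ 2 ∣ M → b p = 0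
  sgn : ε = 1 ∨ ε = -1
  al : ALw M M g ε

/-- U9: for every normalised eigenform `f` on `Γ₀(N)` with integer coefficients and every quadratic
character `χ` mod `m` there is a newform attached to `f ⊗ χ` -/
def StNewf : Prop := ∀ (N : ℕ) (f : ℍ → ℂ) (a : ℕ → ℤ), 0 < N → S2 N f →
  QE f (fun n => (a n : ℂ)) → a 1 = 1 → TE N a (fun n => (a n : ℂ)) →
  ∀ (m : ℕ) (χ : MulChar (ZMod m) ℤ), 0 < m → χ.IsQuadratic →
  ∃ (M : ℕ) (g : ℍ → ℂ) (b : ℕ → ℝ) (ε : ℝ), NF M g b ε ∧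
    (∀ p : ℕ, p.Prime → p ∣ M → p ∣ N * m) ∧
    ∀ n : ℕ, n.Coprime (N * m) → b n = a n * χ (n : ZMod m)

end P004N
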