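import Vale.Agent.P004N.DefsL

/-!
# P004N.H503: the order of vanishing at `1` does not depend on finitely many Euler factors
-/

open Real Filter Topology

namespace P004N.H503.Ord

open P004N

/-! ### the coefficients -/

/-- the local data at `p`: the factor is `1 - A p p^{-s} + δ p^{1-2s}` -/
def Rec (A : ℕ → ℝ) (p : ℕ) (δ : ℝ) : Prop :=
  ∀ k : ℕ, A (p ^ (k + 2)) = A p * A (p ^ (k + 1)) - δ * p * A (p ^ k)

/-- multiplicative with polynomial growth -/
structure PM (A : ℕ → ℝ) : Prop where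
  zero : A 0 = 0
  mul : ∀ m n : ℕ, m.Coprime n → A (m * n) = A m * A n
  bd : ∀ n : ℕ, |A n| ≤ (n : ℝ) ^ 2

lemma pow_bound {p : ℕ} (hp : p.Prime) {A : ℕ → ℝ} (h1 : A 1 = 1) (ha : |A p| ≤ p + 1) {δ : ℝ}
    (hδ : |δ| ≤ 1) (h : Rec A p δ) (k : ℕ) : |A (p ^ k)| ≤ ((p : ℝ) + 2) ^ k := by
  have hp2 : (2 : ℝ) ≤ p := by exact_mod_cast hp.two_le
  induction k using Nat.strong_induction_on with
  | _ k ih =>
    match k with
    | 0 => simp [h1]
    | 1 => simp only [pow_one]; linarith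
    | k + 2 =>
      rw [h k]
      have i1 := ih (k + 1) (by omega)
      have i0 := ih k (by omega)
      calc |A p * A (p ^ (k + 1)) - δ * p * A (p ^ k)|
          ≤ |A p * A (p ^ (k + 1))| + |δ * p * A (p ^ k)| := abs_sub _ _
        _ = |A p| * |A (p ^ (k + 1))| + |δ| * p * |A (p ^ k)| := by
            rw [abs_mul, abs_mul, abs_mul, abs_of_nonneg (by linarith : (0 : ℝ) ≤ (p : ℝ))]
        _ ≤ (p + 1) * ((p : ℝ) + 2) ^ (k + 1) + 1 * p * ((p : ℝ) + 2) ^ k := by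
            gcongr
        _ ≤ ((p : ℝ) + 2) ^ (k + 2) := by
            have : 0 ≤ ((p : ℝ) + 2) ^ k := by positivity
            have e : ((p : ℝ) + 2) ^ (k + 2) - ((p + 1) * ((p : ℝ) + 2) ^ (k + 1) +
              1 * p * ((p : ℝ) + 2) ^ k) = 2 * ((p : ℝ) + 2) ^ k := by ring
            linarith

lemma bound_of_pow {A : ℕ → ℝ} (h0 : A 0 = 0) (h1 : A 1 = 1)
    (hmul : ∀ m n : ℕ, m.Coprime n → A (m * n) = A m * A n)
    (hpw : ∀ p : ℕ, p.Prime → ∀ k : ℕ, |A (p ^ k)| ≤ ((p : ℝ) + 2) ^ k) (n : ℕ) :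
    |A n| ≤ (n : ℝ) ^ 2 := by
  induction n using Nat.recOnPosPrimePosCoprime with
  | prime_pow p k hp _ =>
    refine (hpw p hp k).trans ?_
    have hp2 : (2 : ℝ) ≤ p := by exact_mod_cast hp.two_le
    push_cast
    rw [← pow_mul, mul_comm k 2, pow_mul]
    apply pow_le_pow_left₀ (by linarith)
    nlinarith
  | zero => simp [h0]
  | one => simp [h1]
  | coprime a b _ _ hab ha hb =>
    rw [hmul a b hab, abs_mul]
    push_cast
    rw [mul_pow]
    exact mul_le_mul ha hb (abs_nonneg _) (by positivity)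

/-- the coefficients prime to the primes of `T` -/
noncomputable def rem (T : Finset ℕ) (A : ℕ → ℝ) (n : ℕ) : ℝ :=
  open Classical in if ∃ p ∈ T, p ∣ n then 0 else A n

lemma rem_empty (A : ℕ → ℝ) : rem ∅ A = A := by
  funext n; simp [rem]

lemma rem_insert (p : ℕ) (T : Finset ℕ) (A : ℕ → ℝ) (n : ℕ) :
    rem (insert p T) A n = if p ∣ n then 0 else rem T A n := by
  classical
  unfold rem
  by_cases h1 : p ∣ n
  · rw [if_pos ⟨p, Finset.mem_insert_self _ _, h1⟩, if_pos h1]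
  · rw [if_neg h1]
    have : (∃ q ∈ insert p T, q ∣ n) ↔ ∃ q ∈ T, q ∣ n := by
      constructor
      · rintro ⟨q, hq, hqn⟩
        rcases Finset.mem_insert.mp hq with rfl | hq
        · exact absurd hqn h1
        · exact ⟨q, hq, hqn⟩
      · rintro ⟨q, hq, hqn⟩
        exact ⟨q, Finset.mem_insert_of_mem hq, hqn⟩
    simp only [this]

lemma rem_pm {T : Finset ℕ} (hT : ∀ p ∈ T, p.Prime) {A : ℕ → ℝ} (hA : PM A) : PM (rem T A) := by
  classical
  refine ⟨?_, ?_, ?_⟩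
  · unfold rem
    split_ifs
    · rfl
    · exact hA.zero
  · intro m n hmn
    unfold rem
    have : (∃ p ∈ T, p ∣ m * n) ↔ (∃ p ∈ T, p ∣ m) ∨ (∃ p ∈ T, p ∣ n) := by
      constructor
      · rintro ⟨p, hp, h⟩
        rcases (Nat.Prime.dvd_mul (hT p hp)).mp h with h | h
        · exact Or.inl ⟨p, hp, h⟩
        · exact Or.inr ⟨p, hp, h⟩
      · rintro (⟨p, hp, h⟩ | ⟨p, hp, h⟩)
        · exact ⟨p, hp, Dvd.dvd.mul_right h _⟩
        · exact ⟨p, hp, Dvd.dvd.mul_left h _⟩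
    simp only [this]
    by_cases h1 : ∃ p ∈ T, p ∣ m
    · simp [h1]
    · by_cases h2 : ∃ p ∈ T, p ∣ n
      · simp [h2]
      · simp only [h1, h2, or_self, if_false]
        exact hA.mul m n hmn
  · intro n
    unfold rem
    split_ifs
    · simp
    · exact hA.bd n

lemma rem_pow {T : Finset ℕ} (hT : ∀ p ∈ T, p.Prime) {A : ℕ → ℝ} {q : ℕ} (hq : q.Prime)
    (hqT : q ∉ T) (k : ℕ) : rem T A (q ^ k) = A (q ^ k) := by
  classical
  unfold rem
  rw [if_neg]
  rintro ⟨p, hp, h⟩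
  have := (Nat.prime_dvd_prime_iff_eq (hT p hp) hq).mp ((hT p hp).dvd_of_dvd_pow h)
  exact hqT (this ▸ hp)

/-! ### Dirichlet series -/

lemma summ {A : ℕ → ℝ} (hA : PM A) {s : ℂ} (hs : 3 < s.re) :
    Summable (fun n : ℕ => (A n : ℂ) / (n : ℂ) ^ s) := by
  have h1 : Summable (fun n : ℕ => (n : ℝ) ^ (2 - s.re)) := by
    rw [Real.summable_nat_rpow]
    linarith
  refine Summable.of_norm_bounded h1 ?_
  intro n
  rcases Nat.eq_zero_or_pos n with rfl | hn
  · simp only [hA.zero]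
    simp
    positivity
  · have hn' : (0 : ℝ) < n := by exact_mod_cast hn
    rw [norm_div, Complex.norm_real, Complex.norm_natCast_cpow_of_pos hn, Real.norm_eq_abs,
      Real.rpow_sub hn']
    apply div_le_div_of_nonneg_right _ (by positivity)
    have := hA.bd n
    simpa using this

lemma shift {A : ℕ → ℝ} {s T : ℂ} (hf : HasSum (fun n : ℕ => (A n : ℂ) / (n : ℂ) ^ s) T) {p : ℕ}
    (hp : 0 < p) : HasSum (fun m : ℕ => ((if p ∣ m then A (m / p) else 0 : ℝ) : ℂ) / (m : ℂ) ^ s)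
      (T / (p : ℂ) ^ s) := by
  have hinj : Function.Injective (fun n : ℕ => p * n) := fun a b h => Nat.eq_of_mul_eq_mul_left hp h
  refine (hinj.hasSum_iff (f := fun m : ℕ => ((if p ∣ m then A (m / p) else 0 : ℝ) : ℂ) /
    (m : ℂ) ^ s) ?_).mp ?_
  · intro n hn
    have : ¬ p ∣ n := fun ⟨k, hk⟩ => hn ⟨k, hk.symm⟩
    simp [this]
  · have h := hf.div_const ((p : ℂ) ^ s)
    have hfun : ((fun m : ℕ => ((if p ∣ m then A (m / p) else 0 : ℝ) : ℂ) / (m : ℂ) ^ s) ∘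
        fun n : ℕ => p * n) = fun n : ℕ => (A n : ℂ) / (n : ℂ) ^ s / (p : ℂ) ^ s := by
      funext n
      simp only [Function.comp_apply, dvd_mul_right, if_true, Nat.mul_div_cancel_left _ hp]
      push_cast
      rw [Complex.natCast_mul_natCast_cpow, div_div, mul_comm ((p : ℂ) ^ s)]
    rw [hfun]
    exact h

/-- removal of one Euler factor -/
lemma remove {A : ℕ → ℝ} (hA : PM A) (h1 : A 1 = 1) {p : ℕ} (hp : p.Prime) {δ : ℝ} (hr : Rec A p δ)
    {s : ℂ} (hs : 3 < s.re) :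
    (∑' n : ℕ, (A n : ℂ) / (n : ℂ) ^ s) *
      (1 - A p / (p : ℂ) ^ s + δ * p / (p : ℂ) ^ s / (p : ℂ) ^ s) =
    ∑' n : ℕ, ((if p ∣ n then 0 else A n : ℝ) : ℂ) / (n : ℂ) ^ s := by
  have hS := (summ hA hs).hasSum
  set T := ∑' n : ℕ, (A n : ℂ) / (n : ℂ) ^ s with hT
  have hS1 := shift hS hp.pos
  have hS2 := shift hS1 hp.pos
  have h3 := (hS.sub (hS1.mul_left (A p : ℂ))).add (hS2.mul_left ((δ * p : ℝ) : ℂ))
  have e : T * (1 - A p / (p : ℂ) ^ s + δ * p / (p : ℂ) ^ s / (p : ℂ) ^ s) =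
      T - A p * (T / (p : ℂ) ^ s) + ((δ * p : ℝ) : ℂ) * (T / (p : ℂ) ^ s / (p : ℂ) ^ s) := by
    push_cast; ring
  rw [e, ← h3.tsum_eq]
  congr 1
  funext n
  have key : A n - A p * (if p ∣ n then A (n / p) else 0) +
      δ * p * (if p ∣ n then (if p ∣ n / p then A (n / p / p) else 0) else 0) =
      if p ∣ n then 0 else A n := by
    rcases Nat.eq_zero_or_pos n with rfl | hn
    · simp [hA.zero]
    · obtain ⟨k, m, hm, rfl⟩ := Nat.exists_eq_pow_mul_and_not_dvd hn.ne' p hp.ne_one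
      have hcop : ∀ j, (p ^ j).Coprime m := fun j =>
        Nat.Coprime.pow_left j ((Nat.Prime.coprime_iff_not_dvd hp).mpr hm)
      match k with
      | 0 => simp [hm]
      | 1 =>
        have d1 : p ∣ p ^ 1 * m := Dvd.intro m (by ring)
        have e1 : p ^ 1 * m / p = m := by
          rw [pow_one]; exact Nat.mul_div_cancel_left _ hp.pos
        rw [if_pos d1, if_pos d1, if_pos d1, e1, if_neg hm, hA.mul _ _ (hcop 1)]
        simp
      | k + 2 =>
        have d1 : p ∣ p ^ (k + 2) * m := Dvd.intro (p ^ (k + 1) * m) (by ring)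
        have e1 : p ^ (k + 2) * m / p = p ^ (k + 1) * m := by
          rw [show p ^ (k + 2) * m = p * (p ^ (k + 1) * m) by ring]
          exact Nat.mul_div_cancel_left _ hp.pos
        have d2 : p ∣ p ^ (k + 1) * m := Dvd.intro (p ^ k * m) (by ring)
        have e2 : p ^ (k + 1) * m / p = p ^ k * m := by
          rw [show p ^ (k + 1) * m = p * (p ^ k * m) by ring]
          exact Nat.mul_div_cancel_left _ hp.pos
        rw [if_pos d1, if_pos d1, if_pos d1, e1, if_pos d2, e2, hA.mul _ _ (hcop _),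
          hA.mul _ _ (hcop _), hA.mul _ _ (hcop _), hr k]
        ring
  rw [← key]
  push_cast
  ring

/-- the Euler factor -/
noncomputable def ef (a δ : ℝ) (p : ℕ) (s : ℂ) : ℂ :=
  1 - a / (p : ℂ) ^ s + δ * p / (p : ℂ) ^ s / (p : ℂ) ^ s

lemma ef_analytic (a δ : ℝ) {p : ℕ} (hp : p.Prime) : Differentiable ℂ (ef a δ p) := by
  have hp0 : (p : ℂ) ≠ 0 := by exact_mod_cast hp.ne_zero
  have h : Differentiable ℂ (fun s : ℂ => (p : ℂ) ^ s) := fun s =>
    (differentiableAt_id.const_cpow (Or.inl hp0))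
  have hne : ∀ s : ℂ, (p : ℂ) ^ s ≠ 0 := fun s => by
    simp [Complex.cpow_eq_zero_iff, hp0]
  unfold ef
  intro s
  exact (((differentiableAt_const _).sub ((differentiableAt_const _).div (h s) (hne s))).add
    (((differentiableAt_const _).div (h s) (hne s)).div (h s) (hne s)))

lemma ef_one {a δ : ℝ} {p : ℕ} (hp : p.Prime)
    (h : (δ = 1 ∧ |a| < p + 1) ∨ (δ = 0 ∧ |a| < p)) : ef a δ p 1 ≠ 0 := by
  have hp0 : (p : ℂ) ≠ 0 := by exact_mod_cast hp.ne_zero
  have hp0' : (p : ℝ) ≠ 0 := by exact_mod_cast hp.ne_zero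
  have hpp : (0 : ℝ) < p := by exact_mod_cast hp.pos
  have e : ef a δ p 1 = ((1 - a / p + δ / p : ℝ) : ℂ) := by
    unfold ef
    rw [Complex.cpow_one]
    push_cast
    field_simp
  rw [e]
  have h2 : (1 - a / p + δ / p : ℝ) ≠ 0 := by
    have h3 : (1 - a / p + δ / p : ℝ) = (p - a + δ) / p := by field_simp
    rw [h3]
    apply div_ne_zero _ hp0'
    rcases h with ⟨rfl, h⟩ | ⟨rfl, h⟩
    · have := (abs_lt.mp h).2
      linarith
    · have := (abs_lt.mp h).2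
      linarith
  exact_mod_cast h2

/-- removal of the Euler factors of the primes of `T` -/
lemma removes {A : ℕ → ℝ} (hA : PM A) (h1 : A 1 = 1) (T : Finset ℕ) (hT : ∀ p ∈ T, p.Prime)
    (δ : ℕ → ℝ) (hr : ∀ p ∈ T, Rec A p (δ p)) {s : ℂ} (hs : 3 < s.re) :
    (∑' n : ℕ, (A n : ℂ) / (n : ℂ) ^ s) * ∏ p ∈ T, ef (A p) (δ p) p s =
    ∑' n : ℕ, (rem T A n : ℂ) / (n : ℂ) ^ s := by
  classical
  induction T using Finset.induction_on with
  | empty => simp [rem_empty]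
  | insert p T hpT ih =>
    have hT' : ∀ q ∈ T, q.Prime := fun q hq => hT q (Finset.mem_insert_of_mem hq)
    have hp := hT p (Finset.mem_insert_self _ _)
    rw [Finset.prod_insert hpT, mul_comm (ef (A p) (δ p) p s), ← mul_assoc,
      ih hT' fun q hq => hr q (Finset.mem_insert_of_mem hq)]
    have hpw := fun k => rem_pow hT' (A := A) hp hpT k
    have hrec : Rec (rem T A) p (δ p) := by
      intro k
      have e1 : rem T A p = A p := by simpa using hpw 1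
      rw [hpw, hpw, hpw, e1]
      exact hr p (Finset.mem_insert_self _ _) k
    have h1' : rem T A 1 = 1 := by
      have := hpw 0
      simpa [h1] using this
    have hp1 : rem T A p = A p := by simpa using hpw 1
    have := remove (rem_pm hT' hA) h1' hp hrec hs
    rw [hp1] at this
    unfold ef
    rw [this]
    congr 1
    funext n
    rw [rem_insert]

/-- **the order of vanishing does not depend on finitely many Euler factors** -/
theorem ord_eq_gen {A A' : ℕ → ℝ} (hA : PM A) (h1 : A 1 = 1) (hA' : PM A') (h1' : A' 1 = 1)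
    (T : Finset ℕ) (hT : ∀ p ∈ T, p.Prime) (δ δ' : ℕ → ℝ)
    (hr : ∀ p ∈ T, Rec A p (δ p)) (hr' : ∀ p ∈ T, Rec A' p (δ' p))
    (hn : ∀ p ∈ T, (δ p = 1 ∧ |A p| < p + 1) ∨ (δ p = 0 ∧ |A p| < p))
    (hn' : ∀ p ∈ T, (δ' p = 1 ∧ |A' p| < p + 1) ∨ (δ' p = 0 ∧ |A' p| < p))
    (h : ∀ n : ℕ, (∀ p ∈ T, ¬ p ∣ n) → A n = A' n) {L L' : ℂ → ℂ} (hL : Differentiable ℂ L)
    (hL' : Differentiable ℂ L')
    (hLs : ∀ s : ℂ, 3 < s.re → L s = ∑' n : ℕ, (A n : ℂ) / (n : ℂ) ^ s)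
    (hLs' : ∀ s : ℂ, 3 < s.re → L' s = ∑' n : ℕ, (A' n : ℂ) / (n : ℂ) ^ s) :
    analyticOrderAt L 1 = analyticOrderAt L' 1 := by
  classical
  set E : ℂ → ℂ := fun s => ∏ p ∈ T, ef (A p) (δ p) p s with hE
  set E' : ℂ → ℂ := fun s => ∏ p ∈ T, ef (A' p) (δ' p) p s with hE'
  have hEd : Differentiable ℂ E := by
    rw [hE]
    exact Differentiable.fun_finsetProd fun p hp => ef_analytic _ _ (hT p hp)
  have hEd' : Differentiable ℂ E' := by
    rw [hE']
    exact Differentiable.fun_finsetProd fun p hp => ef_analytic _ _ (hT p hp)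
  have hrem : rem T A = rem T A' := by
    funext n
    unfold rem
    by_cases hc : ∃ p ∈ T, p ∣ n
    · simp [hc]
    · simp only [hc, if_false]
      push Not at hc
      exact h n hc
  have heq : ∀ s : ℂ, 3 < s.re → L s * E s = L' s * E' s := by
    intro s hs
    rw [hLs s hs, hLs' s hs, removes hA h1 T hT δ hr hs, removes hA' h1' T hT δ' hr' hs, hrem]
  have hfun : L * E = L' * E' := by
    have ha : AnalyticOnNhd ℂ (L * E) Set.univ := (hL.mul hEd).differentiableOn.analyticOnNhd isOpen_univ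
    have ha' : AnalyticOnNhd ℂ (L' * E') Set.univ :=
      (hL'.mul hEd').differentiableOn.analyticOnNhd isOpen_univ
    have hev : (L * E) =ᶠ[𝓝 (4 : ℂ)] (L' * E') := by
      have hopen : IsOpen {s : ℂ | 3 < s.re} := isOpen_lt continuous_const Complex.continuous_re
      have hmem : (4 : ℂ) ∈ {s : ℂ | 3 < s.re} := by
        show (3 : ℝ) < (4 : ℂ).re
        norm_num
      filter_upwards [hopen.mem_nhds hmem] with s hs
      exact heq s hs
    exact AnalyticOnNhd.eq_of_eventuallyEq ha ha' hev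
  have hE1 : E 1 ≠ 0 := Finset.prod_ne_zero_iff.mpr fun p hp => ef_one (hT p hp) (hn p hp)
  have hE1' : E' 1 ≠ 0 := Finset.prod_ne_zero_iff.mpr fun p hp => ef_one (hT p hp) (hn' p hp)
  have aL := hL.analyticAt 1
  have aL' := hL'.analyticAt 1
  have aE := hEd.analyticAt 1
  have aE' := hEd'.analyticAt 1
  have o1 := analyticOrderAt_mul aL aE
  have o2 := analyticOrderAt_mul aL' aE'
  rw [aE.analyticOrderAt_eq_zero.mpr hE1, add_zero] at o1
  rw [aE'.analyticOrderAt_eq_zero.mpr hE1', add_zero] at o2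
  rw [← o1, ← o2, hfun]

/-! ### the sequences `LDr` -/

lemma ldr_loc {A : ℕ → ℝ} (hA : LDr A) {p : ℕ} (hp : p.Prime) :
    ∃ δ : ℝ, |δ| ≤ 1 ∧ Rec A p δ ∧ |A p| ≤ p + 1 ∧
      (|A p| < p + 1 → (δ = 1 ∧ |A p| < p + 1) ∨ (δ = 0 ∧ |A p| < p)) := by
  have hp2 : (2 : ℝ) ≤ p := by exact_mod_cast hp.two_le
  rcases hA.loc p hp with ⟨h, hb⟩ | ⟨h, hb⟩
  · refine ⟨1, by simp, fun k => by rw [h k]; ring, hb, fun h' => Or.inl ⟨rfl, h'⟩⟩
  · refine ⟨0, by simp, fun k => ?_, by linarith, fun _ => Or.inr ⟨rfl, by linarith⟩⟩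
    rw [h (k + 1)]
    ring

lemma ldr_pm {A : ℕ → ℝ} (hA : LDr A) : PM A := by
  refine ⟨hA.zero, hA.mul, bound_of_pow hA.zero hA.one hA.mul ?_⟩
  intro p hp k
  obtain ⟨δ, hδ, hr, hb, -⟩ := ldr_loc hA hp
  exact pow_bound hp hA.one hb hδ hr k

/-- **two sequences `LDr` which agree prime to `S`** -/
theorem ord_eq {A A' : ℕ → ℝ} (hA : LDr A) (hA' : LDr A') {S : ℕ} (hS : S ≠ 0)
    (hb : ∀ p : ℕ, p.Prime → p ∣ S → |A p| < p + 1)
    (hb' : ∀ p : ℕ, p.Prime → p ∣ S → |A' p| < p + 1)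
    (h : ∀ n : ℕ, n.Coprime S → A n = A' n) {L L' : ℂ → ℂ} (hL : IsLr A L) (hL' : IsLr A' L') :
    analyticOrderAt L 1 = analyticOrderAt L' 1 := by
  classical
  have hch : ∀ p : ℕ, ∃ δ : ℝ, p.Prime → |δ| ≤ 1 ∧ Rec A p δ ∧ |A p| ≤ p + 1 ∧
      (|A p| < p + 1 → (δ = 1 ∧ |A p| < p + 1) ∨ (δ = 0 ∧ |A p| < p)) := by
    intro p
    by_cases hp : p.Prime
    · obtain ⟨δ, hδ⟩ := ldr_loc hA hp
      exact ⟨δ, fun _ => hδ⟩
    · exact ⟨0, fun h => absurd h hp⟩
  have hch' : ∀ p : ℕ, ∃ δ : ℝ, p.Prime → |δ| ≤ 1 ∧ Rec A' p δ ∧ |A' p| ≤ p + 1 ∧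
      (|A' p| < p + 1 → (δ = 1 ∧ |A' p| < p + 1) ∨ (δ = 0 ∧ |A' p| < p)) := by
    intro p
    by_cases hp : p.Prime
    · obtain ⟨δ, hδ⟩ := ldr_loc hA' hp
      exact ⟨δ, fun _ => hδ⟩
    · exact ⟨0, fun h => absurd h hp⟩
  choose δ hδ using hch
  choose δ' hδ' using hch'
  have hpr : ∀ p ∈ S.primeFactors, p.Prime := fun p hp => Nat.prime_of_mem_primeFactors hp
  refine ord_eq_gen (ldr_pm hA) hA.one (ldr_pm hA') hA'.one S.primeFactors hpr δ δ'
    (fun p hp => (hδ p (hpr p hp)).2.1) (fun p hp => (hδ' p (hpr p hp)).2.1)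
    (fun p hp => (hδ p (hpr p hp)).2.2.2 (hb p (hpr p hp) (Nat.dvd_of_mem_primeFactors hp)))
    (fun p hp => (hδ' p (hpr p hp)).2.2.2 (hb' p (hpr p hp) (Nat.dvd_of_mem_primeFactors hp)))
    ?_ hL.1 hL'.1 (fun s hs => hL.2 s (by linarith)) (fun s hs => hL'.2 s (by linarith))
  intro n hn
  apply h
  rw [Nat.coprime_iff_gcd_eq_one]
  by_contra hne
  obtain ⟨q, hq, hqd⟩ := Nat.exists_prime_and_dvd hne
  exact hn q (Nat.mem_primeFactors.mpr ⟨hq, (Nat.dvd_gcd_iff.mp hqd).2, hS⟩)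
    (Nat.dvd_gcd_iff.mp hqd).1

end P004N.H503.Ord
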