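import Vale.Agent.P004N.H503.Up

/-!
# P004N.H503: integral matrices acting on the projective line mod `p`
-/

open UpperHalfPlane CongruenceSubgroup Matrix OnePoint Function
open scoped MatrixGroups ModularForm Manifold Real

namespace P004N.H503

section

variable (p : ℕ) [Fact p.Prime]

/-- the integral matrix `[a, b; c, d]` mod `p` (`1` if the determinant vanishes mod `p`) -/
noncomputable def gp (a b c d : ℤ) : GL (Fin 2) (ZMod p) :=
  if h : (a : ZMod p) * d - b * c ≠ 0 then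
    Matrix.GeneralLinearGroup.mkOfDetNeZero !![(a : ZMod p), b; c, d]
      (by simpa [Matrix.det_fin_two_of] using h)
  else 1

variable {p}

lemma gp_coe {a b c d : ℤ} (h : (a : ZMod p) * d - b * c ≠ 0) :
    ((gp p a b c d : GL (Fin 2) (ZMod p)) : Matrix (Fin 2) (Fin 2) (ZMod p)) =
      !![(a : ZMod p), b; c, d] := by
  simp [gp, h, Matrix.GeneralLinearGroup.mkOfDetNeZero]

lemma gp_mul {a b c d a' b' c' d' : ℤ} (h : (a : ZMod p) * d - b * c ≠ 0)
    (h' : (a' : ZMod p) * d' - b' * c' ≠ 0) :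
    gp p a b c d * gp p a' b' c' d' =
      gp p (a * a' + b * c') (a * b' + b * d') (c * a' + d * c') (c * b' + d * d') := by
  have h'' : ((a * a' + b * c' : ℤ) : ZMod p) * ((c * b' + d * d' : ℤ) : ZMod p) -
      ((a * b' + b * d' : ℤ) : ZMod p) * ((c * a' + d * c' : ℤ) : ZMod p) ≠ 0 := by
    have : ((a * a' + b * c' : ℤ) : ZMod p) * ((c * b' + d * d' : ℤ) : ZMod p) -
      ((a * b' + b * d' : ℤ) : ZMod p) * ((c * a' + d * c' : ℤ) : ZMod p)
      = ((a : ZMod p) * d - b * c) * ((a' : ZMod p) * d' - b' * c') := by push_cast; ring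
    rw [this]; exact mul_ne_zero h h'
  apply Units.ext
  rw [Units.val_mul, gp_coe h, gp_coe h', gp_coe h'']
  ext i j
  fin_cases i <;> fin_cases j <;> simp [Matrix.mul_apply, Fin.sum_univ_two]

lemma gp_smul_infty {a b c d : ℤ} (h : (a : ZMod p) * d - b * c ≠ 0) :
    gp p a b c d • (∞ : OnePoint (ZMod p)) =
      if (c : ZMod p) = 0 then ∞ else (((a : ZMod p) / c : ZMod p) : OnePoint (ZMod p)) := by
  rw [OnePoint.smul_infty_eq_ite, gp_coe h]
  simp

lemma gp_smul_coe {a b c d : ℤ} (h : (a : ZMod p) * d - b * c ≠ 0) (t : ZMod p) :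
    gp p a b c d • (t : OnePoint (ZMod p)) =
      if (c : ZMod p) * t + d = 0 then ∞
      else ((((a : ZMod p) * t + b) / (c * t + d) : ZMod p) : OnePoint (ZMod p)) := by
  rw [OnePoint.smul_some_eq_ite, gp_coe h]
  simp

lemma sum_onePoint {A : Type*} [AddCommMonoid A] (Φ : OnePoint (ZMod p) → A) :
    ∑ u, Φ u = Φ ∞ + ∑ t : ZMod p, Φ (t : OnePoint (ZMod p)) :=
  Fintype.sum_option Φ

lemma sum_perm {A : Type*} [AddCommMonoid A] (g : GL (Fin 2) (ZMod p))
    (Φ : OnePoint (ZMod p) → A) : ∑ u, Φ (g • u) = ∑ u, Φ u :=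
  Equiv.sum_comp (MulAction.toPerm g) Φ

lemma gp_det_one {a b c d : ℤ} (h : a * d - b * c = 1) : (a : ZMod p) * d - b * c ≠ 0 := by
  have h1 : ((a * d - b * c : ℤ) : ZMod p) = 1 := by rw [h]; simp
  push_cast at h1
  rw [h1]
  exact one_ne_zero

end

end P004N.H503
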