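import Vale.Agent.P004N.H503.Base

/-!
# P004N.H503: expansions (modules U1, U2)
-/

open UpperHalfPlane CongruenceSubgroup Matrix OnePoint Function
open scoped MatrixGroups ModularForm Manifold Real

namespace P004N.H503

lemma exp_eq (n : ℕ) (z : ℂ) : Complex.exp (2 * π * Complex.I * n * z) =
    (Periodic.qParam 1 z) ^ n := by
  rw [Periodic.qParam, ← Complex.exp_nat_mul]
  congr 1
  push_cast
  ring

lemma qe_iff (F : ℍ → ℂ) (c : ℕ → ℂ) :
    QE F c ↔ ∀ z : ℍ, HasSum (fun m : ℕ => c m • (Periodic.qParam 1 z) ^ m) (F z) := by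
  unfold QE
  simp only [exp_eq, smul_eq_mul]

lemma qe_zero : QE 0 0 := by
  intro z
  simpa using (hasSum_zero : HasSum (fun _ : ℕ => (0 : ℂ)) 0)

lemma qe_add {F G : ℍ → ℂ} {c d : ℕ → ℂ} (hF : QE F c) (hG : QE G d) : QE (F + G) (c + d) := by
  intro z
  have := (hF z).add (hG z)
  simp only [← add_mul] at this
  exact this

lemma qe_smul {F : ℍ → ℂ} {c : ℕ → ℂ} (k : ℂ) (hF : QE F c) : QE (k • F) (k • c) := by
  intro z
  have := (hF z).mul_left k
  simp only [← mul_assoc] at this
  simpa [mul_assoc] using this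

lemma qe_neg {F : ℍ → ℂ} {c : ℕ → ℂ} (hF : QE F c) : QE (-F) (-c) := by
  have := qe_smul (-1) hF
  simpa using this

lemma qe_sub {F G : ℍ → ℂ} {c d : ℕ → ℂ} (hF : QE F c) (hG : QE G d) : QE (F - G) (c - d) := by
  rw [sub_eq_add_neg, sub_eq_add_neg]
  exact qe_add hF (qe_neg hG)

lemma qe_sum {ι : Type*} (s : Finset ι) {F : ι → ℍ → ℂ} {c : ι → ℕ → ℂ}
    (h : ∀ i ∈ s, QE (F i) (c i)) : QE (∑ i ∈ s, F i) (∑ i ∈ s, c i) := by
  classical
  induction s using Finset.induction_on with
  | empty => simpa using qe_zero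
  | insert i t hi IH =>
    rw [Finset.sum_insert hi, Finset.sum_insert hi]
    exact qe_add (h i (Finset.mem_insert_self _ _))
      (IH fun j hj => h j (Finset.mem_insert_of_mem hj))

lemma qe_congr {F : ℍ → ℂ} {c d : ℕ → ℂ} (hF : QE F c) (h : ∀ n, c n = d n) : QE F d := by
  have : c = d := funext h
  rwa [← this]

/-- **U1b** -/
theorem pfQEu : StQEu := by
  intro F c c' h h'
  have h0 : QE 0 (c - c') := by
    have := qe_sub h h'
    rwa [sub_self] at this
  rw [qe_iff] at h0
  have hz : cuspFunction 1 (0 : ℍ → ℂ) = 0 := by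
    unfold cuspFunction
    funext q
    by_cases hq : q = 0
    · subst hq
      unfold Periodic.cuspFunction
      simp only [update_self, Pi.zero_apply]
      apply Filter.Tendsto.limUnder_eq
      have : ((0 : ℍ → ℂ) ∘ ofComplex) ∘ Periodic.invQParam 1 = fun _ => (0 : ℂ) := by
        funext x; simp
      rw [this]
      exact tendsto_const_nhds
    · rw [Periodic.cuspFunction_eq_of_nonzero _ _ hq]
      simp
  have han : AnalyticAt ℂ (cuspFunction 1 (0 : ℍ → ℂ)) 0 := by
    rw [hz]; exact analyticAt_const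
  have hps := hasFPowerSeriesOnBall_cuspFunction (f := (0 : ℍ → ℂ)) one_pos han
    (c := c - c') (by simpa using h0)
  rw [hz] at hps
  have hzero := hps.hasFPowerSeriesAt.eq_zero
  funext n
  have : (FormalMultilinearSeries.ofScalars ℂ (c - c')).coeff n = 0 := by
    rw [hzero]; rfl
  rw [FormalMultilinearSeries.coeff_ofScalars] at this
  exact sub_eq_zero.mp this

lemma periodic_of_T {F : ℍ → ℂ} (h : F ∣[(2 : ℤ)] gm 1 1 0 1 = F) :
    Function.Periodic (F ∘ ofComplex) 1 := by
  intro w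
  by_cases! hw : 0 < w.im
  · have h1 : 0 < (w + 1).im := by simp [hw]
    simp only [Function.comp_apply, ofComplex_apply_of_im_pos h1, ofComplex_apply_of_im_pos hw]
    have h2 := congr_fun h ⟨w, hw⟩
    rw [slash_gm (by norm_num)] at h2
    simp at h2
    rw [← h2]
    congr 1
    apply UpperHalfPlane.ext
    rw [gm_coe_smul (by norm_num)]
    simp
  · have : (w + 1).im ≤ 0 := by simpa using hw
    simp [ofComplex_apply_of_im_nonpos this, ofComplex_apply_of_im_nonpos hw]

/-- **U1a** -/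
theorem pfQEx : StQEx := by
  intro N F hN hF
  obtain ⟨hm, hi, hz⟩ := (s2_iff N F).mp hF
  have hper := periodic_of_T (hi 1 1 0 1 (by norm_num) (dvd_zero _))
  have hz0 : IsZeroAtImInfty F := by
    have := hz 1
    rwa [SlashAction.slash_one] at this
  have hb : IsBoundedAtImInfty F := hz0.boundedAtFilter
  refine ⟨fun n => (qExpansion 1 F).coeff n, ?_, ?_⟩
  · rw [qe_iff]
    intro z
    exact hasSum_qExpansion one_pos (by simpa using hper) hm hb z
  · show (qExpansion 1 F).coeff 0 = 0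
    rw [qExpansion_coeff_zero one_pos
      (analyticAt_cuspFunction_zero one_pos (by simpa using hper) hm hb) (by simpa using hper)]
    exact hz0.valueAtInfty_eq_zero

/-- **U2** -/
theorem pfConj : StConj := by
  intro N F c hN hF hq
  obtain ⟨hm, hi, hz⟩ := (s2_iff N F).mp hF
  have hJ : ∀ z : ℍ, (F ∣[(2 : ℤ)] gm (-1) 0 0 1) z =
      (starRingEnd ℂ) (F (gm (-1) 0 0 1 • z)) := by
    intro z
    rw [ModularForm.slash_apply, gm_denom (by norm_num), gm_det (by norm_num)]
    have hσ : σ (gm (-1) 0 0 1) = Complex.conjCAE := by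
      rw [σ, if_neg (by rw [gm_det (by norm_num)]; norm_num)]
    rw [hσ]
    simp
  have hJs : ∀ z : ℍ, ((gm (-1) 0 0 1 • z : ℍ) : ℂ) = -(starRingEnd ℂ) (z : ℂ) := by
    intro z
    have : gm (-1) 0 0 1 = UpperHalfPlane.J := by
      apply Units.ext
      rw [gm_coe (by norm_num), val_J]
      simp
    rw [this, coe_J_smul]
  refine ⟨F ∣[(2 : ℤ)] gm (-1) 0 0 1, (s2_iff _ _).mpr ⟨mdiff_slash hm _, ?_, ?_⟩, ?_⟩
  · intro a b c' d hd hc
    rw [← SlashAction.slash_mul, gm_mul (by norm_num) (by rw [hd]; norm_num)]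
    have h1 : gm (-1 * a + 0 * c') (-1 * b + 0 * d) (0 * a + 1 * c') (0 * b + 1 * d) =
        gm a (-b) (-c') d * gm (-1) 0 0 1 := by
      rw [gm_mul (by simpa [hd] using (one_ne_zero : (1 : ℤ) ≠ 0)) (by norm_num)]
      congr 1 <;> ring
    rw [h1, SlashAction.slash_mul, hi a (-b) (-c') d (by linarith) (dvd_neg.mpr hc)]
  · exact zc_slash hz (by norm_num)
  · intro z
    rw [hJ z]
    have h2 := Complex.hasSum_conj'.mpr (hq (gm (-1) 0 0 1 • z))
    convert h2 using 2 with n
    rw [map_mul, ← Complex.exp_conj, hJs]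
    congr 2
    simp only [map_mul, map_neg, Complex.conj_conj, Complex.conj_I, Complex.conj_ofReal,
      map_natCast, map_ofNat]
    ring

end P004N.H503
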