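import Vale.Agent.P004N.H503.P1

/-!
# P004N.H503: the trace (module U6)
-/

open UpperHalfPlane CongruenceSubgroup Matrix OnePoint Function
open scoped MatrixGroups ModularForm Manifold Real

namespace P004N.H503

section

variable {p : ℕ} [Fact p.Prime]

/-- the terms of the trace from level `p L` to level `L`, indexed by the projective line -/
noncomputable def trT (F : ℍ → ℂ) (p L : ℕ) (x y z w : ℤ) : OnePoint (ZMod p) → ℍ → ℂ
  | ∞ => F
  | (t : ZMod p) => F ∣[(2 : ℤ)] gm x (y - x * t.val) (L * z) (p * w - L * z * t.val)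

lemma beta_det {p L : ℕ} {x y z w : ℤ} (h : p * x * w - L * y * z = 1) (T : ℤ) :
    x * (p * w - L * z * T) - (y - x * T) * (L * z) = 1 := by linear_combination h

lemma trT_key {F : ℍ → ℂ} {L : ℕ} (hpL : ¬ p ∣ L) {x y z w : ℤ}
    (h : p * x * w - L * y * z = 1) (hF : Inv0 (p * L) F) {a b c d : ℤ}
    (hd : a * d - b * c = 1) (hc : (L : ℤ) ∣ c) :
    F ∣[(2 : ℤ)] gm a b c d = trT F p L x y z w (gp p d (-b) (-c) a • ∞) := by
  have hp : p.Prime := Fact.out
  have hcop : IsCoprime (p : ℤ) (L : ℤ) := by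
    rw [Nat.isCoprime_iff_coprime]
    exact (Nat.Prime.coprime_iff_not_dvd hp).mpr hpL
  rw [gp_smul_infty (gp_det_one (by linear_combination hd))]
  by_cases hc0 : ((-c : ℤ) : ZMod p) = 0
  · rw [if_pos hc0]
    have hpc : (p : ℤ) ∣ c := by
      have := (ZMod.intCast_zmod_eq_zero_iff_dvd (-c) p).mp hc0
      exact (dvd_neg.mp this)
    show F ∣[(2 : ℤ)] gm a b c d = F
    exact hF a b c d hd (by push_cast; exact hcop.mul_dvd hpc hc)
  · rw [if_neg hc0]
    set t : ZMod p := ((d : ℤ) : ZMod p) / ((-c : ℤ) : ZMod p) with ht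
    set T : ℤ := ((t.val : ℕ) : ℤ) with hT
    show F ∣[(2 : ℤ)] gm a b c d =
      F ∣[(2 : ℤ)] gm x (y - x * T) (L * z) (p * w - L * z * T)
    have hcT : (p : ℤ) ∣ c * T + d := by
      rw [← ZMod.intCast_zmod_eq_zero_iff_dvd]
      push_cast
      rw [hT]
      push_cast
      rw [ZMod.natCast_zmod_val, ht]
      push_cast
      push_cast at hc0
      have hc1 : (c : ZMod p) ≠ 0 := fun h => hc0 (by rw [h]; simp)
      field_simp
      ring
    have hβ := beta_det (p := p) (L := L) h T
    have h1 : gm a b c d =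
        gm (a * (p * w - L * z * T) - b * (L * z)) (-a * (y - x * T) + b * x)
          (c * (p * w - L * z * T) - d * (L * z)) (-c * (y - x * T) + d * x) *
        gm x (y - x * T) (L * z) (p * w - L * z * T) := by
      rw [gm_mul (by
        have : (a * (p * w - L * z * T) - b * (L * z)) * (-c * (y - x * T) + d * x) -
          (-a * (y - x * T) + b * x) * (c * (p * w - L * z * T) - d * (L * z)) =
          (a * d - b * c) * (x * (p * w - L * z * T) - (y - x * T) * (L * z)) := by ring
        rw [this, hd, hβ]; norm_num) (by rw [hβ]; norm_num)]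
      congr 1
      · linear_combination (-a) * hβ
      · linear_combination (-b) * hβ
      · linear_combination (-c) * hβ
      · linear_combination (-d) * hβ
    have hdet1 : (a * (p * w - L * z * T) - b * (L * z)) * (-c * (y - x * T) + d * x) -
          (-a * (y - x * T) + b * x) * (c * (p * w - L * z * T) - d * (L * z)) = 1 := by
      have : (a * (p * w - L * z * T) - b * (L * z)) * (-c * (y - x * T) + d * x) -
          (-a * (y - x * T) + b * x) * (c * (p * w - L * z * T) - d * (L * z)) =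
          (a * d - b * c) * (x * (p * w - L * z * T) - (y - x * T) * (L * z)) := by ring
      rw [this, hd, hβ]; norm_num
    rw [h1, SlashAction.slash_mul, hF _ _ _ _ hdet1 ?_]
    push_cast
    apply hcop.mul_dvd
    · have : c * (p * w - L * z * T) - d * (L * z) = p * (c * w) - L * z * (c * T + d) := by ring
      rw [this]
      exact dvd_sub (dvd_mul_right _ _) (Dvd.dvd.mul_left hcT _)
    · apply dvd_sub (Dvd.dvd.mul_right hc _)
      exact ⟨d * z, by ring⟩

lemma trT_slash {F : ℍ → ℂ} {L : ℕ} (hpL : ¬ p ∣ L) {x y z w : ℤ}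
    (h : p * x * w - L * y * z = 1) (hF : Inv0 (p * L) F) {a b c d : ℤ}
    (hd : a * d - b * c = 1) (hc : (L : ℤ) ∣ c) (u : OnePoint (ZMod p)) :
    (trT F p L x y z w u) ∣[(2 : ℤ)] gm a b c d =
      trT F p L x y z w (gp p d (-b) (-c) a • u) := by
  have hp : p.Prime := Fact.out
  induction u with
  | infty => exact trT_key hpL h hF hd hc
  | coe t =>
    set T : ℤ := ((t.val : ℕ) : ℤ) with hT
    have hβ := beta_det (p := p) (L := L) h T
    show (F ∣[(2 : ℤ)] gm x (y - x * T) (L * z) (p * w - L * z * T)) ∣[(2 : ℤ)] gm a b c d = _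
    rw [← SlashAction.slash_mul, gm_mul (by rw [hβ]; norm_num) (by rw [hd]; norm_num),
      trT_key hpL h hF (x := x) (y := y) (z := z) (w := w) (by
        linear_combination (x * (p * w - L * z * T) - (y - x * T) * (L * z)) * hd + hβ) (by
        exact dvd_add ⟨z * a, by ring⟩ (Dvd.dvd.mul_left hc _))]
    congr 1
    have hβ' : (p * w - L * z * T) * x - (-(y - x * T)) * (-(L * z)) = 1 := by
      linear_combination hβ
    have h3 : gp p d (-b) (-c) a * gp p (p * w - L * z * T) (-(y - x * T)) (-(L * z)) x =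
        gp p ((L * z) * b + (p * w - L * z * T) * d) (-(x * b + (y - x * T) * d))
          (-((L * z) * a + (p * w - L * z * T) * c)) (x * a + (y - x * T) * c) := by
      rw [gp_mul (gp_det_one (by linear_combination hd)) (gp_det_one hβ')]
      congr 1 <;> ring
    rw [← h3, mul_smul]
    congr 1
    rw [gp_smul_infty (gp_det_one hβ')]
    have hLz : ((L : ZMod p)) * (z : ZMod p) ≠ 0 := by
      intro h0
      have h4 : (((p : ℤ) * x * w - L * y * z : ℤ) : ZMod p) = 1 := by rw [h]; simp
      push_cast at h4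
      rw [ZMod.natCast_self] at h4
      have : (L : ZMod p) * y * z = y * (L * z) := by ring
      rw [this, h0] at h4
      simp at h4
    rw [if_neg (by push_cast; simpa using hLz)]
    congr 1
    rw [hT]
    push_cast
    rw [ZMod.natCast_zmod_val, ZMod.natCast_self, div_eq_iff (by simpa using hLz)]
    ring

end

/-- a matrix of `W_p` at level `p L` -/
lemma exists_xw {p L : ℕ} (h : p.Coprime L) : ∃ x y z w : ℤ, (p : ℤ) * x * w - L * y * z = 1 := by
  have hcop : IsCoprime (p : ℤ) (L : ℤ) := Nat.isCoprime_iff_coprime.mpr h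
  obtain ⟨u, v, huv⟩ := hcop
  exact ⟨u, -v, 1, 1, by linear_combination huv⟩

/-- the explicit form of `F ∣ W_Q = G` -/
lemma als_slash {N Q : ℕ} (hQ : 0 < Q) {F G : ℍ → ℂ} (h : ALs N Q F G) {x y z w : ℤ}
    (hd : (Q * x) * (Q * w) - y * (N * z) = (Q : ℤ)) :
    F ∣[(2 : ℤ)] gm (Q * x) y (N * z) (Q * w) = G := by
  have hdet : (0 : ℤ) < (Q * x) * (Q * w) - y * (N * z) := by rw [hd]; exact_mod_cast hQ
  funext τ
  rw [slash_gm hdet, h x y z w hd τ (gm (Q * x) y (N * z) (Q * w) • τ) (by
    rw [gm_coe_smul hdet]; push_cast; rfl)]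
  have hne := denom_ne (c := N * z) (d := Q * w) (by
    rintro ⟨h1, h2⟩
    rw [h1, h2] at hdet
    simp at hdet) τ
  have hQC : (Q : ℂ) ≠ 0 := by exact_mod_cast hQ.ne'
  rw [hd]
  push_cast at hne ⊢
  field_simp

/-- **U6** -/
theorem pfTr : StTr := by
  intro L p F G c c' hL hp hpL hF hq hA hG
  have : Fact p.Prime := ⟨hp⟩
  have : NeZero p := ⟨hp.ne_zero⟩
  obtain ⟨x, y, z, w, h⟩ := exists_xw ((Nat.Prime.coprime_iff_not_dvd hp).mpr hpL)
  obtain ⟨hmd, hi, hz⟩ := (s2_iff _ F).mp hF
  have hp0 : (0 : ℤ) < p := by exact_mod_cast hp.pos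
  have hWd : ((p : ℤ) * x) * (p * w) - y * ((p * L : ℕ) * z) = (p : ℤ) := by
    push_cast
    linear_combination (p : ℤ) * h
  have hGW := als_slash hp.pos hA hWd
  -- the terms
  have hterm : ∀ t : ZMod p, dv G p ((-t).val : ℤ) = trT F p L x y z w (t : OnePoint (ZMod p)) := by
    intro t
    have hGi : ∀ k : ℤ, G ∣[(2 : ℤ)] gm 1 k 0 1 = G := by
      intro k
      rw [← hGW, ← SlashAction.slash_mul]
      have hdet1 : (1 - p * x * L * z * k) * (1 + p * x * L * z * k) -
          (p * x ^ 2 * k) * (-(p * L ^ 2 * z ^ 2 * k)) = 1 := by ring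
      have h5 : gm (p * x) y ((p * L : ℕ) * z) (p * w) * gm 1 k 0 1 =
          gm (1 - p * x * L * z * k) (p * x ^ 2 * k) (-(p * L ^ 2 * z ^ 2 * k))
            (1 + p * x * L * z * k) * gm (p * x) y ((p * L : ℕ) * z) (p * w) := by
        rw [gm_mul (by rw [hWd]; exact hp0.ne') (by norm_num),
          gm_mul (by rw [hdet1]; norm_num) (by rw [hWd]; exact hp0.ne')]
        push_cast
        congr 1
        · ring
        · linear_combination (-(p * x * k)) * h
        · ring
        · linear_combination (-(p * L * z * k)) * h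
      rw [h5, SlashAction.slash_mul, hi _ _ _ _ hdet1 (by
        push_cast
        exact ⟨-(L * z ^ 2 * k), by ring⟩)]
    have hshift : dv G p ((-t).val : ℤ) = dv G p (-(t.val : ℤ)) := by
      have h6 : (((-t).val : ℤ) : ZMod p) = ((-(t.val : ℤ) : ℤ) : ZMod p) := by
        push_cast
        rw [ZMod.natCast_zmod_val, ZMod.natCast_zmod_val]
      rw [ZMod.intCast_eq_intCast_iff_dvd_sub] at h6
      obtain ⟨k, hk⟩ := h6
      have h7 : gm 1 (-(t.val : ℤ)) 0 p = gm 1 k 0 1 * gm 1 ((-t).val : ℤ) 0 p := by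
        rw [gm_mul (by norm_num) (dv_det hp.pos _).ne']
        have h8 : -(t.val : ℤ) = ((-t).val : ℤ) + p * k := by linarith
        rw [h8]
        congr 1 <;> ring
      unfold dv
      rw [h7, SlashAction.slash_mul, hGi]
    rw [hshift]
    show G ∣[(2 : ℤ)] gm 1 (-(t.val : ℤ)) 0 p =
      F ∣[(2 : ℤ)] gm x (y - x * t.val) (L * z) (p * w - L * z * t.val)
    have hβ := beta_det (p := p) (L := L) h (t.val : ℤ)
    have h9 := slash_scale (k := p) (a := x) (b := y - x * (t.val : ℤ)) (c := L * z)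
      (d := p * w - L * z * (t.val : ℤ)) hp0.ne' (by rw [hβ]; norm_num) F
    rw [← h9, ← hGW, ← SlashAction.slash_mul,
      gm_mul (by rw [hWd]; exact hp0.ne') (dv_det hp.pos _).ne']
    congr 2
    · push_cast; ring
    · push_cast; ring
    · push_cast; ring
    · push_cast; ring
  set H : ℍ → ℂ := ∑ u : OnePoint (ZMod p), trT F p L x y z w u with hH
  have hHeq : H = F + upf G p := by
    rw [hH, sum_onePoint]
    congr 1
    rw [Finset.sum_congr rfl fun t _ => (hterm t).symm]
    exact Equiv.sum_comp (Equiv.neg (ZMod p)) (fun j : ZMod p => dv G p (j.val : ℤ))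
  refine ⟨H, (s2_iff _ _).mpr ⟨?_, ?_, ?_⟩, ?_⟩
  · apply mdiff_sum
    intro u _
    induction u with
    | infty => exact hmd
    | coe t => exact mdiff_slash hmd _
  · intro a b c₁ d hd hc
    rw [hH, SlashAction.sum_slash, Finset.sum_congr rfl fun u _ => trT_slash hpL h hi hd hc u]
    exact sum_perm _ _
  · apply zc_sum
    intro u _
    induction u with
    | infty => exact hz
    | coe t => exact zc_slash hz (by rw [beta_det (p := p) (L := L) h]; norm_num)
  · rw [hHeq]
    exact qe_add hq (qe_upf hG p)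

end P004N.H503
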