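import Vale.Agent.P004N.H503.Supp

/-!
# P004N.H503: the operator `U_p` (module U3)
-/

open UpperHalfPlane CongruenceSubgroup Matrix OnePoint Function
open scoped MatrixGroups ModularForm Manifold Real

namespace P004N.H503

/-- `F ∣ [1, j; 0, p]` -/
noncomputable def dv (F : ℍ → ℂ) (p : ℕ) (j : ℤ) : ℍ → ℂ := F ∣[(2 : ℤ)] gm 1 j 0 p

lemma dv_det {p : ℕ} (hp : 0 < p) (j : ℤ) : (0 : ℤ) < 1 * (p : ℤ) - j * 0 := by
  have : (0 : ℤ) < p := by exact_mod_cast hp
  rw [mul_zero, sub_zero, one_mul]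
  exact this

lemma dv_apply (F : ℍ → ℂ) {p : ℕ} (hp : 0 < p) (j : ℤ) (z : ℍ) :
    dv F p j z = (p : ℂ)⁻¹ * F (gm 1 j 0 p • z) := by
  unfold dv
  rw [slash_gm (dv_det hp j)]
  have : (p : ℂ) ≠ 0 := by exact_mod_cast hp.ne'
  push_cast
  rw [zero_mul, zero_add, mul_zero, sub_zero, one_mul]
  field_simp

lemma dv_coe {p : ℕ} (hp : 0 < p) (j : ℤ) (z : ℍ) :
    ((gm 1 j 0 p • z : ℍ) : ℂ) = (z + j) / p := by
  rw [gm_coe_smul (dv_det hp j)]
  push_cast
  rw [zero_mul, zero_add, one_mul]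

lemma dv_congr {F : ℍ → ℂ} {M : ℕ} (hF : Inv0 M F) {p : ℕ} (hp : 0 < p) {j j' : ℤ}
    (h : (j : ZMod p) = (j' : ZMod p)) : dv F p j = dv F p j' := by
  rw [ZMod.intCast_eq_intCast_iff_dvd_sub] at h
  obtain ⟨k, hk⟩ := h
  have : gm 1 j' 0 p = gm 1 k 0 1 * gm 1 j 0 p := by
    rw [gm_mul (by norm_num) (dv_det hp j).ne']
    have : j' = j + p * k := by linarith
    subst this
    congr 1 <;> ring
  unfold dv
  rw [this, SlashAction.slash_mul, hF 1 k 0 1 (by norm_num) (dvd_zero _)]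

/-- `∑_j F ∣ [1, j; 0, p]` -/
noncomputable def upf (F : ℍ → ℂ) (p : ℕ) [NeZero p] : ℍ → ℂ :=
  ∑ j : ZMod p, dv F p (j.val : ℤ)

lemma qe_upf {F : ℍ → ℂ} {c : ℕ → ℂ} (hF : QE F c) (p : ℕ) [NeZero p] :
    QE (upf F p) (fun n => c (p * n)) := by
  have hp : 0 < p := Nat.pos_of_ne_zero (NeZero.ne p)
  have hpC : (p : ℂ) ≠ 0 := by exact_mod_cast hp.ne'
  intro z
  have h1 : upf F p z = ∑ j : ZMod p, (p : ℂ)⁻¹ * F (gm 1 (j.val : ℤ) 0 p • z) := by
    unfold upf
    rw [Finset.sum_apply]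
    exact Finset.sum_congr rfl fun j _ => dv_apply F hp _ z
  rw [h1]
  have h2 : HasSum (fun n : ℕ => ∑ j : ZMod p, (p : ℂ)⁻¹ * (c n * Complex.exp (2 * π * Complex.I * n *
      ((gm 1 (j.val : ℤ) 0 p • z : ℍ) : ℂ)))) (∑ j : ZMod p, (p : ℂ)⁻¹ * F (gm 1 (j.val : ℤ) 0 p • z)) :=
    hasSum_sum fun j _ => (hF (gm 1 (j.val : ℤ) 0 p • z)).mul_left _
  have h3 : ∀ n : ℕ, ∑ j : ZMod p, (p : ℂ)⁻¹ * (c n * Complex.exp (2 * π * Complex.I * n *
      ((gm 1 (j.val : ℤ) 0 p • z : ℍ) : ℂ))) =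
      if p ∣ n then c n * Complex.exp (2 * π * Complex.I * n * (z / p)) else 0 := by
    intro n
    have h4 : ∀ j : ZMod p, Complex.exp (2 * π * Complex.I * n *
        ((gm 1 (j.val : ℤ) 0 p • z : ℍ) : ℂ)) =
        Complex.exp (2 * π * Complex.I * n * (z / p)) * ZMod.stdAddChar (j * (n : ZMod p)) := by
      intro j
      have h5 : j * (n : ZMod p) = (((j.val : ℤ) * n : ℤ) : ZMod p) := by
        push_cast
        rw [ZMod.natCast_zmod_val]
      rw [h5, ZMod.stdAddChar_coe, ← Complex.exp_add, dv_coe hp]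
      congr 1
      push_cast
      field_simp
    simp only [h4]
    have h6 : ∑ j : ZMod p, (ZMod.stdAddChar (j * (n : ZMod p)) : ℂ) =
        if p ∣ n then (p : ℂ) else 0 := by
      have := AddChar.sum_mulShift (n : ZMod p) (ZMod.isPrimitive_stdAddChar p)
      rw [this]
      simp only [ZMod.natCast_eq_zero_iff, ZMod.card]
      split_ifs <;> simp
    calc ∑ j : ZMod p, (p : ℂ)⁻¹ * (c n * (Complex.exp (2 * π * Complex.I * n * (z / p)) *
          ZMod.stdAddChar (j * (n : ZMod p))))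
        = (p : ℂ)⁻¹ * (c n * (Complex.exp (2 * π * Complex.I * n * (z / p)))) *
          ∑ j : ZMod p, (ZMod.stdAddChar (j * (n : ZMod p)) : ℂ) := by
          rw [Finset.mul_sum]
          exact Finset.sum_congr rfl fun j _ => by ring
      _ = _ := by
          rw [h6]
          split_ifs
          · field_simp
          · simp
  simp only [h3] at h2
  have hinj : Function.Injective (fun n : ℕ => p * n) := fun a b h => Nat.eq_of_mul_eq_mul_left hp h
  have h7 := (hinj.hasSum_iff (f := fun n : ℕ => if p ∣ n then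
    c n * Complex.exp (2 * π * Complex.I * n * (z / p)) else 0) (by
      intro n hn
      have : ¬ p ∣ n := fun ⟨k, hk⟩ => hn ⟨k, hk.symm⟩
      simp [this])).mpr h2
  have hfun : ((fun n : ℕ => if p ∣ n then
      c n * Complex.exp (2 * π * Complex.I * n * (z / p)) else 0) ∘ fun n : ℕ => p * n) =
      fun n : ℕ => c (p * n) * Complex.exp (2 * π * Complex.I * n * z) := by
    funext n
    simp only [Function.comp_apply, dvd_mul_right, if_true]
    congr 2
    push_cast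
    field_simp
  rw [hfun] at h7
  exact h7

lemma dv_slash {F : ℍ → ℂ} {M : ℕ} (hF : Inv0 M F) {p : ℕ} (hp : 0 < p) {a b c d : ℤ}
    (hd : a * d - b * c = 1) (hpc : (p : ℤ) ∣ c) (hc : (M : ℤ) ∣ p * c) (j : ℤ) :
    (dv F p j) ∣[(2 : ℤ)] gm a b c d = dv F p (d * (b + j * d)) := by
  obtain ⟨e, rfl⟩ := hpc
  have hdet' : (a + j * (p * e)) * (d - p * e * (d * (b + j * d))) -
      (-(e * (b + j * d) ^ 2)) * (p * (p * e)) = 1 := by
    linear_combination (1 - p * e * (b + j * d)) * hd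
  have h1 : gm 1 j 0 p * gm a b (p * e) d =
      gm (a + j * (p * e)) (-(e * (b + j * d) ^ 2)) (p * (p * e))
        (d - p * e * (d * (b + j * d))) * gm 1 (d * (b + j * d)) 0 p := by
    rw [gm_mul (dv_det hp j).ne' (by rw [hd]; norm_num),
      gm_mul (by rw [hdet']; norm_num) (dv_det hp _).ne']
    congr 1
    · ring
    · linear_combination (-(b + j * d)) * hd
    · ring
    · ring
  unfold dv
  rw [← SlashAction.slash_mul, h1, SlashAction.slash_mul, hF _ _ _ _ hdet' hc]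

lemma s2_upf {F : ℍ → ℂ} {M M' p : ℕ} [NeZero p] (hpM : p ∣ M') (hM : M ∣ p * M')
    (hF : S2 M F) : S2 M' (upf F p) := by
  have hp : 0 < p := Nat.pos_of_ne_zero (NeZero.ne p)
  obtain ⟨hmd, hi, hz⟩ := (s2_iff M F).mp hF
  refine (s2_iff _ _).mpr ⟨mdiff_sum _ fun j _ => mdiff_slash hmd _, ?_,
    zc_sum _ fun j _ => zc_slash hz (dv_det hp _).ne'⟩
  intro a b c d hd hc
  have hpc : (p : ℤ) ∣ c := dvd_trans (by exact_mod_cast hpM) hc
  have hMc : (M : ℤ) ∣ p * c := dvd_trans (by exact_mod_cast hM) (mul_dvd_mul_left (p : ℤ) hc)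
  have hdu : IsUnit ((d : ℤ) : ZMod p) := by
    have : ((a : ℤ) : ZMod p) * ((d : ℤ) : ZMod p) = 1 := by
      have h1 : ((a * d - b * c : ℤ) : ZMod p) = 1 := by rw [hd]; simp
      push_cast at h1
      rw [(ZMod.intCast_zmod_eq_zero_iff_dvd c p).mpr hpc] at h1
      simpa using h1
    exact IsUnit.of_mul_eq_one _ (by rw [mul_comm]; exact this)
  obtain ⟨u, hu⟩ := hdu
  unfold upf
  rw [SlashAction.sum_slash]
  have h1 : ∀ j : ZMod p, (dv F p (j.val : ℤ)) ∣[(2 : ℤ)] gm a b c d =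
      dv F p ((((u : ZMod p) ^ 2 * j + u * (b : ZMod p)).val : ℕ) : ℤ) := by
    intro j
    rw [dv_slash hi hp hd hpc hMc]
    apply dv_congr hi hp
    push_cast
    rw [ZMod.natCast_zmod_val, ZMod.natCast_zmod_val, hu]
    ring
  rw [Finset.sum_congr rfl fun j _ => h1 j]
  have h2 := Equiv.sum_comp ((Units.mulLeft (u ^ 2)).trans (Equiv.addRight ((u : ZMod p) * b)))
    (fun j : ZMod p => dv F p (j.val : ℤ))
  simpa [Units.mulLeft] using h2

/-- **U3** -/
theorem pfUp : StUp := by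
  intro M M' p F c hM hp hpM hMM hM' hF hq
  have : NeZero p := ⟨hp.ne_zero⟩
  exact ⟨upf F p, s2_upf hpM hMM hF, qe_upf hq p⟩

end P004N.H503
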